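import Vale.Agent.P280Z.En.Defs

/-!
# P280Z, block EN: vector fields from linear maps which are tangent to the cone
-/

open scoped Manifold ContDiff Topology Matrix
open Set Filter
open Vale.Agent.P272.K Vale.Agent.P285.H281.FD Vale.Agent.P281Z Vale.Agent.P280Z.Ld
open Vale.Agent.P277Z (Hol)
open Vale.Agent.P277Z.Slc (dd dd_chart dd_congr)
open ContinuousLinearMap (fst snd)

set_option linter.unusedSectionVars false

noncomputable section

namespace Vale.Agent.P280Z.En

namespace Fld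

theorem an_sol {Z E F : Type} [NormedAddCommGroup Z] [NormedSpace ℂ Z] [NormedAddCommGroup E]
    [NormedSpace ℂ E] [NormedAddCommGroup F] [NormedSpace ℂ F] [FiniteDimensional ℂ E]
    [FiniteDimensional ℂ F] {P : Z → E →L[ℂ] F} {w : Z → F} {u : Z → E} {z : Z}
    (hP : AnalyticAt ℂ P z) (hi : Function.Injective (P z)) (hw : AnalyticAt ℂ w z)
    (h : ∀ᶠ y in 𝓝 z, P y (u y) = w y) : AnalyticAt ℂ u z := by
  have : CompleteSpace E := FiniteDimensional.complete ℂ E
  obtain ⟨r, hr⟩ := (P z : E →ₗ[ℂ] F).exists_leftInverse_of_injective (LinearMap.ker_eq_bot.2 hi)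
  have h1 : AnalyticAt ℂ (fun y => r.toContinuousLinearMap.comp (P y)) z :=
    ((ContinuousLinearMap.compL ℂ E F E r.toContinuousLinearMap).analyticAt _).fun_comp hP
  have h2 : r.toContinuousLinearMap.comp (P z) = ((1 : (E →L[ℂ] E)ˣ) : E →L[ℂ] E) :=
    ContinuousLinearMap.ext fun v => LinearMap.congr_fun hr v
  have h3 := (analyticAt_inverse (𝕜 := ℂ) (1 : (E →L[ℂ] E)ˣ)).comp_of_eq h1 h2
  have h4 := (r.toContinuousLinearMap.analyticAt _).fun_comp hw
  refine (((ContinuousLinearMap.id ℂ (E →L[ℂ] E)).analyticAt_bilinear _).comp₂ h3 h4).congr ?_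
  filter_upwards [h, h1.continuousAt.eventually (Units.isOpen.mem_nhds ⟨1, h2.symm⟩)]
    with y k1 k2
  rw [← k1]
  exact congrArg (fun T : E →L[ℂ] E => T (u y)) (Ring.inverse_mul_cancel _ k2)

variable {n : ℕ} {ι : Type} [Fintype ι]

/-- the values and the first derivatives -/
def Pz (F : Cm n → ι → ℂ) (z : Cm n) : ℂ × Cm n →L[ℂ] ι → ℂ :=
  (fst ℂ ℂ (Cm n)).smulRight (F z) + (fderiv ℂ F z).comp (snd ℂ ℂ (Cm n))

theorem an_Pz {F : Cm n → ι → ℂ} {z : Cm n} (h : AnalyticAt ℂ F z) : AnalyticAt ℂ (Pz F) z := by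
  have h1 := ((ContinuousLinearMap.smulRightL ℂ (ℂ × Cm n) (ι → ℂ) (fst ℂ ℂ (Cm n))).analyticAt
    _).fun_comp h
  have h2 := (((ContinuousLinearMap.compL ℂ (ℂ × Cm n) (Cm n) (ι → ℂ)).flip
    (snd ℂ ℂ (Cm n))).analyticAt _).fun_comp h.fderiv
  exact h1.add h2

variable {V : Mf n} {L : Bd V.X} {s : ι → L.ι → V.X → ℂ} {a b : L.ι} {x : V.X}
  {e e' : Chart n V.X} {A : (ι → ℂ) →ₗ[ℂ] (ι → ℂ)} {v : Cm n}

variable (s a e) in
/-- the sections in a chart -/
def Fz (z : Cm n) (j : ι) : ℂ := s j a (e.symm z)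

theorem an_Fz (h : Va n L s) (ha : x ∈ L.U a) (he : At e x) : AnalyticAt ℂ (Fz s a e) (e x) :=
  analyticAt_pi_iff.2 fun j => sec_hol (h.sec j).1 ha e he

theorem Fz_at (he : At e x) : Fz s a e (e x) = fun j => s j a x :=
  funext fun j => by rw [Fz, e.left_inv he.2]

theorem Pz_eq (h : Va n L s) (ha : x ∈ L.U a) (he : At e x) (c : ℂ) (v : Cm n) :
    Pz (Fz s a e) (e x) (c, v) = fun j => c * s j a x + dd (s j a) e x v := by
  have k : fderiv ℂ (Fz s a e) (e x) = ContinuousLinearMap.pi fun j => dd (s j a) e x :=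
    fderiv_pi fun j => (sec_hol (h.sec j).1 ha e he).differentiableAt
  rw [Pz, Fz_at he, k]
  rfl

theorem Pz_inj (h : Va n L s) (ha : x ∈ L.U a) (he : At e x) :
    Function.Injective (Pz (Fz s a e) (e x)) := by
  refine (injective_iff_map_eq_zero _).2 fun ⟨c, v⟩ k => ?_
  have k1 := congrFun ((Pz_eq h ha he c v).symm.trans k)
  simp only [Pi.zero_apply] at k1
  obtain rfl := h.tan x a e v ha he fun j l => by
    linear_combination s l a x * k1 j - s j a x * k1 l
  obtain ⟨l, hl⟩ : ∃ l, NZ L (s l) x := by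
    by_contra k
    exact (h.bpf ▸ (not_exists.1 k : x ∈ Bs L s) : x ∈ (∅ : Set V.X))
  have k2 := k1 l
  rw [map_zero, add_zero] at k2
  rw [(mul_eq_zero.1 k2).resolve_right (hl a ha)]
  rfl

variable (s A a x e v) in
/-- `v` is the value of the vector field -/
def R : Prop := ∃ c : ℂ, (A fun j => s j a x) = fun j => c * s j a x + dd (s j a) e x v

theorem R.uniq {v' : Cm n} (h : Va n L s) (ha : x ∈ L.U a) (he : At e x) (k : R s a x e A v)
    (k' : R s a x e A v') : v = v' :=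
  k.elim fun c k => k'.elim fun c' k' => congrArg Prod.snd (Pz_inj h ha he (a₁ := (c, v))
    (a₂ := (c', v')) (by rw [Pz_eq h ha he, Pz_eq h ha he, ← k, ← k']))

theorem R.chart (h : Va n L s) (ha : x ∈ L.U a) (he : At e x) (he' : At e' x)
    (k : R s a x e A v) : R s a x e' A (jacM e e' x *ᵥ v) :=
  k.imp fun c k => k.trans (funext fun j => by
    rw [← dfM_id he he', dfM_mulVec, dd_chart (sec_hol (h.sec j).1 ha) he' he]
    rfl)

theorem R.frame (h : Va n L s) (ha : x ∈ L.U a) (hb : x ∈ L.U b) (he : At e x)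
    (k : R s b x e A v) : R s a x e A v := by
  obtain ⟨c, k⟩ := k
  have k0 := h.lb.ne_zero a b x ha hb
  have k1 : (fun j => s j a x) = L.g a b x • fun j => s j b x :=
    funext fun j => (h.sec j).1.change a b x ha hb
  refine ⟨c - dd (L.g a b) e x v / L.g a b x, ?_⟩
  rw [k1, map_smul, k]
  funext j
  rw [dd_congr (b := fun y => L.g a b y * s j b y) (((lb_near h.lb ha).and (lb_near h.lb hb)).mono
    fun y k => (h.sec j).1.change a b y k.1 k.2) he, (h.sec j).1.change a b x ha hb]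
  simp only [dd]
  rw [fderiv_fun_mul (lb_hol h.lb ha hb e he).differentiableAt
    (sec_hol (h.sec j).1 hb e he).differentiableAt, e.left_inv he.2]
  simp only [Pi.smul_apply, smul_eq_mul, add_apply, smul_apply]
  field_simp
  ring

end Fld

open Fld

theorem fld : FLD := by
  intro n V L ι _ s A h hA
  let ξ (e : Chart n V.X) (z : Cm n) : Cm n :=
    Classical.epsilon fun v => ∀ a, e.symm z ∈ L.U a → R s a (e.symm z) e A v
  have sp : ∀ a x (e : Chart n V.X), x ∈ L.U a → At e x → R s a x e A (ξ e (e x)) :=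
    fun a x e ha he => by
      simp only [ξ, e.left_inv he.2]
      exact Classical.epsilon_spec (p := fun v => ∀ a, x ∈ L.U a → R s a x e A v)
        ((hA a x e ha he).elim fun c k => k.imp fun v k b hb => R.frame h hb ha he ⟨c, k⟩) a ha
  refine ⟨ξ, ⟨fun e x he => ?_, fun e e' x he he' => (h.lb.cover x).elim fun a ha =>
    R.uniq h ha he' (sp a x e' ha he') ((sp a x e ha he).chart h ha he he')⟩, sp⟩
  obtain ⟨a, ha⟩ := h.lb.cover x
  have k : ∀ᶠ z in 𝓝 (e x), ∃ c, Pz (Fz s a e) z (c, ξ e z) = A (Fz s a e z) := by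
    filter_upwards [at_ev he ((lb_near h.lb ha).and (at_near he)), he.nhds_target] with z k1 k2
    rw [← e.right_inv k2, Fz_at k1.2]
    exact (sp a _ e k1.1 k1.2).imp fun c k => (Pz_eq h k1.1 k1.2 _ _).trans k.symm
  obtain ⟨c, hc⟩ := k.choice
  exact analyticAt_snd.fun_comp (an_sol (u := fun z => (c z, ξ e z)) (an_Pz (an_Fz h ha he))
    (Pz_inj h ha he) ((A.toContinuousLinearMap.analyticAt _).fun_comp (an_Fz h ha he)) hc)

theorem gen_of (hG : GRA) (hF : FLD) : GEN := by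
  intro V L s N h hN hi e x he v
  obtain ⟨N', hN'⟩ := N.exists_leftInverse_of_injective (LinearMap.ker_eq_bot.2 hi)
  have k : ∀ a x (e : Chart 6 V.X), x ∈ L.U a → At e x → ∀ w,
      (∃ u, N (Pz (Fz s a e) (e x) u) = w) ↔ ∃ g : M5,
        w = g * N (fun j => s j a x) + N (fun j => s j a x) * gᵀ := fun a x e ha he w => by
    obtain ⟨k1, k2⟩ := hG.1 _ (hN a x ha)
    have k3 := (an_Fz h ha he).differentiableAt.hasFDerivAt
    have k4 := fun p q => ((Matrix.entryLinearMap ℂ ℂ p q ∘ₗ N).toContinuousLinearMap.hasFDerivAt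
      (x := Fz s a e (e x))).comp _ k3
    rw [← k2, ← Submodule.eq_of_le_of_finrank_le
      (S₁ := (N ∘ₗ (Pz (Fz s a e) (e x)).toLinearMap).range) ?_ (k1.trans_eq ?_)]
    · rfl
    · rintro _ ⟨⟨c, u⟩, rfl⟩
      have k5 := hG.2 6 (fun z => N (Fz s a e z)) (e x) u (fun p q => (k4 p q).differentiableAt)
        (at_ev he ((lb_near h.lb ha).mono fun y => hN a y))
      change N (c • Fz s a e (e x) + fderiv ℂ (Fz s a e) (e x) u) ∈ _
      rw [map_add, map_smul]
      rw [Fz_at he] at k5 ⊢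
      refine add_mem (Submodule.smul_mem _ _ ((k2 _).2 ⟨(1 / 2 : ℂ) • 1, ?_⟩)) ?_
      · simp only [Matrix.transpose_smul, Matrix.transpose_one, smul_mul_assoc, mul_smul_comm,
          one_mul, mul_one, ← add_smul, add_halves, one_smul]
      · rwa [show N (fderiv ℂ (Fz s a e) (e x) u) = _ from Matrix.ext fun p q =>
          (congrArg (· u) (k4 p q).fderiv).symm]
    · refine Eq.trans ?_ (LinearMap.finrank_range_of_inj fun _ _ k => Pz_inj h ha he (hi k)).symm
      simp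
  obtain ⟨a, ha⟩ := h.lb.cover x
  obtain ⟨g, hg⟩ := (k a x e ha he _).1 ⟨(0, v), rfl⟩
  have k1 : ∀ {w w'}, N w = g * N w' + N w' * gᵀ →
      (N' ∘ₗ (LinearMap.mulLeft ℂ g + LinearMap.mulRight ℂ gᵀ) ∘ₗ N) w' = w := fun k =>
    (congrArg N' k.symm).trans (LinearMap.congr_fun hN' _)
  obtain ⟨ξ, h1, h2⟩ := hF V L _ s _ h fun a x e ha he => ((k a x e ha he _).2 ⟨g, rfl⟩).elim
    fun u hu => ⟨u.1, u.2, (k1 hu).trans (Pz_eq h ha he _ _)⟩
  exact ⟨ξ, h1, R.uniq h ha he (h2 a x e ha he) ⟨0, (k1 hg).trans (Pz_eq h ha he _ _)⟩⟩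

end Vale.Agent.P280Z.En
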