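import Vale.Agent.P280Z.En.Defs
import Vale.Agent.P281Z.Pb.Api
import Vale.Agent.P281Z.Pb.Ps
import Vale.Agent.P281Z.Sc.Sy

/-!
# P280Z, block EN: very ampleness from generation in degree one, immersions
-/

open scoped Manifold ContDiff Topology
open Set Filter
open Vale.Agent.P272.K Vale.Agent.P285.H281.FD Vale.Agent.P281Z Vale.Agent.P280Z.Ld
open Vale.Agent.P277Z (Hol at_chart hol_const)
open Vale.Agent.P277Z.Slc (dd)
open Vale.Agent.P277.HD (pull)

noncomputable section

namespace Vale.Agent.P280Z.En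

namespace ValX

theorem dg_pw {T : CT} (hT : T.Rg) {n : ℕ} {V : Mf n} {w : T.H V} (h : T.Dg V 1 w) :
    ∀ k, T.Dg V k (w ^ k)
  | 0 => by rw [pow_zero]; exact hT.dg_one V
  | k + 1 => by rw [pow_succ]; exact hT.dg_mul V _ _ _ _ (dg_pw hT h k) h

variable {n : ℕ} {X : Type} [TopologicalSpace X] [ChartedSpace (Cm n) X] {x : X} {e : Chart n X}
  {f g : X → ℂ}

omit [ChartedSpace (Cm n) X] in
theorem dd_c (c : ℂ) (v : Cm n) : dd (fun _ => c) e x v = 0 := by
  rw [dd, fderiv_fun_const]; rfl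

theorem dd_a (hf : Hol n f x) (hg : Hol n g x) (he : At e x) (v : Cm n) :
    dd (fun y => f y + g y) e x v = dd f e x v + dd g e x v :=
  DFunLike.congr_fun (fderiv_fun_add (hf e he).differentiableAt (hg e he).differentiableAt) v

theorem dd_m (hf : Hol n f x) (hg : Hol n g x) (he : At e x) (v : Cm n) :
    dd (fun y => f y * g y) e x v = f x * dd g e x v + g x * dd f e x v := by
  have := DFunLike.congr_fun
    (fderiv_fun_mul (hf e he).differentiableAt (hg e he).differentiableAt) v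
  rw [he.left_inv] at this
  exact this

end ValX

open ValX

theorem val_of (va : VA) : VAL := by
  intro n V L ι s hL hP hB hG hS
  obtain ⟨k, r, t, hk, ht⟩ := va V L hL hP
  obtain ⟨k, rfl⟩ := Nat.exists_eq_add_of_le' hk
  have h1 : ∀ j, s j ∈ Γ n L := fun j => hS ▸ Submodule.subset_span (mem_range_self j)
  have h2 : ∀ j, t j ∈ Γ n L ^ (k + 1) := fun j => hG k (ht.sec j)
  have h3 : ∀ {x a}, x ∈ L.U a → ∃ l, s l a x ≠ 0 := fun {x a} ha => by
    by_contra! h
    obtain ⟨u, hu, hx⟩ := hB x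
    have h4 : Γ n L ≤ LinearMap.ker (evA L a x).toLinearMap :=
      hS ▸ Submodule.span_le.2 (range_subset_iff.2 h)
    exact hx a ha ((nm_of ha).symm.trans (h4 (nm_mem hL hu)))
  refine ⟨hL, h1, eq_empty_of_forall_notMem fun x hx => ?_, fun x y a b ha hb h => ?_,
    fun x a e v ha he h => ?_⟩
  · obtain ⟨a, ha⟩ := hL.cover x
    obtain ⟨l, hl⟩ := h3 ha
    exact hx l ((nz_iff hL (fun a b => (h1 l).1.change a b x) ha).2 hl)
  · obtain ⟨l, hl⟩ := h3 ha
    generalize hρ : s l b y / s l a x = ρ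
    have h4 : Γ n L ≤ LinearMap.eqLocus (evA L b y).toLinearMap (ρ • (evA L a x).toLinearMap) :=
      hS ▸ Submodule.span_le.2 (range_subset_iff.2 fun j => by
        show s j b y = ρ * s j a x
        rw [← hρ, div_mul_eq_mul_div, mul_comm, ← h l j, mul_div_cancel_left₀ _ hl])
    have h5 : ∀ m, ∀ f ∈ Γ n L ^ m, f b y = ρ ^ m * f a x := fun m f hf => by
      induction hf using Submodule.pow_induction_on_left' with
      | algebraMap c => rw [pow_zero, one_mul]; rfl
      | add f g m _ _ k1 k2 => rw [Pi.add_apply, Pi.add_apply, k1, k2, ← mul_add]; rfl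
      | mem_mul u hu m f _ k1 =>
        show u b y * f b y = _ * (u a x * f a x)
        rw [k1, show u b y = ρ * u a x from h4 hu, pow_succ]
        ring
    exact ht.pts x y a b ha hb fun j l => by rw [h5 _ _ (h2 j), h5 _ _ (h2 l)]; ring
  · obtain ⟨l, hl⟩ := h3 ha
    generalize hμ : dd (s l a) e x v / s l a x = μ
    have h4 : ∀ f ∈ Submodule.span ℂ (range s),
        Hol n (f a) x ∧ dd (f a) e x v = μ * f a x := fun f hf => by
      induction hf using Submodule.span_induction with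
      | mem f hf =>
        obtain ⟨j, rfl⟩ := hf
        exact ⟨sec_hol (h1 j).1 ha, by
          rw [← hμ, div_mul_eq_mul_div, h l j, mul_div_cancel_right₀ _ hl]⟩
      | zero => exact ⟨hol_const 0 x, (dd_c 0 v).trans (mul_zero _).symm⟩
      | add f g _ _ k1 k2 =>
        exact ⟨k1.1.add k2.1, (dd_a k1.1 k2.1 he v).trans (by rw [k1.2, k2.2, ← mul_add]; rfl)⟩
      | smul c f _ k1 =>
        refine ⟨(hol_const c x).mul k1.1, (dd_m (hol_const c x) k1.1 he v).trans ?_⟩
        rw [k1.2, dd_c, mul_zero, add_zero, mul_left_comm]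
        rfl
    have h5 : ∀ m : ℕ, ∀ f ∈ Γ n L ^ m,
        Hol n (f a) x ∧ dd (f a) e x v = m * μ * f a x := fun m f hf => by
      induction hf using Submodule.pow_induction_on_left' with
      | algebraMap c => exact ⟨hol_const c x, (dd_c c v).trans (by simp)⟩
      | add f g m _ _ k1 k2 =>
        exact ⟨k1.1.add k2.1, (dd_a k1.1 k2.1 he v).trans (by rw [k1.2, k2.2, ← mul_add]; rfl)⟩
      | mem_mul u hu m f _ k1 =>
        have k2 := h4 u (hS ▸ hu)
        refine ⟨k2.1.mul k1.1, (dd_m k2.1 k1.1 he v).trans ?_⟩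
        show _ = _ * (u a x * f a x)
        rw [k1.2, k2.2]
        push_cast
        ring
    exact ht.tan x a e v ha he fun j l => by
      linear_combination t l a x * (h5 _ _ (h2 j)).2 - t j a x * (h5 _ _ (h2 l)).2

theorem ima_of (iso : ISO) : IMA := by
  intro T hT n V L ι _ s hL hs hB hI
  by_contra! h
  obtain ⟨S⟩ := Pb.psex (Fintype.card ι)
  obtain ⟨σ, hσ⟩ : ∃ σ : L.ι → V.X → Cm (Fintype.card ι + 1), ∀ b y,
      σ b y = Fin.cons 0 fun j => s ((Fintype.equivFin ι).symm j) b y := ⟨_, fun _ _ => rfl⟩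
  have h1 : ∀ j, IsSec n L fun b y => σ b y j := fun j => by
    simp only [hσ]
    induction j using Fin.cases with
    | zero => exact (zero_mem (Γ n L)).1
    | succ j => exact hs _
  have h2 : ∀ b, ∀ y ∈ L.U b, σ b y ≠ 0 := fun b y hy k => by
    obtain ⟨j, hj⟩ := not_forall.1 (show y ∉ Bs L s from hB ▸ notMem_empty y)
    have := congrFun k (Fintype.equivFin ι j).succ
    rw [hσ, Fin.cons_succ, Equiv.symm_apply_apply] at this
    exact of_not_not hj b hy this
  obtain ⟨φ, hφ, he⟩ := S.lift_sec hL h1 h2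
  have hm : ∀ {b c y}, y ∈ L.U b → φ y ∈ S.H.U c → S.pt (σ b y) ∈ S.H.U c := fun hb hc =>
    he _ _ hb ▸ hc
  have h3 : LRel n L (pull φ S.H) fun b c y => S.sc c (σ b y) :=
    ⟨fun b c y hb hc => S.sc_hol (fun j => sec_hol (h1 j) hb) (h2 b y hb) (hm hb hc),
      fun b c y hb hc => S.sc_ne (h2 b y hb) (hm hb hc), fun b b' c c' y hb hb' hc hc' => by
        have k1 := S.sc_spec (h2 b y hb) (hm hb hc)
        have k2 := S.sc_spec (h2 b' y hb') (hm hb' hc')
        rw [← he b y hb, S.x_chg hc hc', smul_smul] at k1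
        rw [← he b' y hb'] at k2
        refine smul_left_injective ℂ (S.xnz c' _ hc') ?_
        refine k1.symm.trans ?_
        show _ = (_ * _ : ℂ) • _
        rw [mul_smul, ← k2]
        exact funext fun j => (h1 j).change b b' y hb hb'⟩
  refine hI ?_
  rw [(iso V L _ _ hL (hφ.lb S.lb) h3).1 T hT.c1, hT.c1.pull hφ _ S.lb, ← map_pow,
    ← dg_pw hT.rg (hT.c1.deg S.P S.H) n, hT.rg.van hφ n fun x => ?_, map_zero]
  obtain ⟨a, ha⟩ := hL.cover x
  obtain ⟨v, c, hv, h0⟩ := h a x _ ha (at_chart x)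
  obtain ⟨l, hl⟩ := Function.ne_iff.1 (h2 a x ha)
  have h4 : ∀ j, dd (fun y => σ a y j) (chartAt (Cm n) x) x v = c * σ a x j := fun j => by
    simp only [hσ]
    induction j using Fin.cases with
    | zero => exact (dd_c 0 v).trans (mul_zero _).symm
    | succ j => exact hv _
  have h5 : Df n (Fintype.card ι) φ x v = 0 := by
    refine (DFunLike.congr_fun (df_congr ((lb_near hL ha).mono fun y hy => he a y hy)
      (at_chart x)) v).trans ((S.df_eq_zero (fun j => sec_hol (h1 j) ha) hl (at_chart x)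
        (he a x ha ▸ at_chart _)).2 fun j => ?_)
    rw [dd_div (sec_hol (h1 j) ha) (sec_hol (h1 l) ha) hl (at_chart x), h4, h4]
    ring
  have h6 := LinearMap.finrank_range_add_finrank_ker (Df n (Fintype.card ι) φ x)
  have h7 : 0 < Module.finrank ℂ (LinearMap.ker (Df n (Fintype.card ι) φ x)) :=
    Module.finrank_pos_iff_exists_ne_zero.2 ⟨⟨v, h5⟩, fun k => h0 (congrArg Subtype.val k)⟩
  rw [Module.finrank_fin_fun] at h6
  omega

end Vale.Agent.P280Z.En
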