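import Vale.Agent.P280Z.En.Defs

/-!
# P280Z, block EN: five points, tangent spaces of hyperplane sections, generation in degree one
-/

open Set
open Module (finrank)

noncomputable section

namespace Vale.Agent.P280Z.En

namespace AlgH

theorem two (j : Fin 5) : ∃ p q, j ≠ p ∧ j ≠ q ∧ p ≠ q := by
  revert j
  decide

theorem four (j k l : Fin 5) : ∃ p, p ≠ j ∧ p ≠ k ∧ p ≠ l := by
  revert j k l
  decide

theorem factor {V V' : Type} [AddCommGroup V] [Module ℂ V] [AddCommGroup V'] [Module ℂ V']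
    (g : V →ₗ[ℂ] V') (φ : V →ₗ[ℂ] ℂ) (h : ∀ x, g x = 0 → φ x = 0) :
    ∃ φ' : V' →ₗ[ℂ] ℂ, ∀ x, φ' (g x) = φ x := by
  have h1 : φ ∈ LinearMap.range g.dualMap := by
    rw [LinearMap.range_dualMap_eq_dualAnnihilator_ker, Submodule.mem_dualAnnihilator]
    exact h
  obtain ⟨φ', h2⟩ := h1
  exact ⟨φ', fun x => LinearMap.congr_fun h2 x⟩

end AlgH

open AlgH

/-- **ALB** -/
theorem alb : ALB := by
  intro A _ _ W d h
  have mem : ∀ a b, d a - d b ∈ W := fun a b => h.eq ▸ Submodule.subset_span ⟨(a, b), rfl⟩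
  refine ⟨fun m j => ?_, fun ε j hj => ?_⟩
  · obtain ⟨p, q, h1, h2, h3⟩ := two j
    have e : (d j - d p) ^ (m + 1) * (d j - d q) = d j ^ (m + 2) := by
      induction m with
      | zero => linear_combination h.orth p q h3 - h.orth j q h2 - h.orth j p h1
      | succ m ih => linear_combination (d j - d p) * ih - d j ^ (m + 1) * h.orth j p h1
    rw [← e, pow_succ W (m + 1)]
    exact Submodule.mul_mem_mul (Submodule.pow_mem_pow _ (mem j p) _) (mem j q)
  · have h0 : ∀ k, k ≠ j → ε (d k) = 0 := fun k hk => by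
      have e := congrArg ε (h.orth k j hk)
      rw [map_mul, map_zero] at e
      exact (mul_eq_zero.1 e).resolve_right hj
    obtain ⟨k0, -, hk0, -⟩ := two j
    let ev : Tn W ε →ₗ[ℂ] ℂ := Module.Dual.eval ℂ W ⟨_, mem j k0⟩ ∘ₗ (Tn W ε).subtype
    have hinj : Function.Injective ev := by
      rw [injective_iff_map_eq_zero]
      rintro ⟨w, l, hl⟩ hw
      have h1 : ∀ a, w ⟨_, mem a k0⟩ = 0 := fun a => by
        by_cases ha : a = j
        · subst ha
          exact hw
        · obtain ⟨p, p1, p2, p3⟩ := four j a k0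
          have e := hl ⟨_, mem j p⟩ ⟨_, mem a k0⟩
          have e0 : (d j - d p) * (d a - d k0) = 0 := by
            linear_combination h.orth j a (Ne.symm ha) - h.orth j k0 hk0 - h.orth p a p2 +
              h.orth p k0 p3
          simp only [e0, map_zero, map_sub, h0 p p1, h0 a ha, h0 k0 hk0.symm, sub_zero, mul_zero,
            add_zero] at e
          exact (mul_eq_zero.1 e.symm).resolve_left hj
      refine Subtype.ext ((Submodule.linearMap_eq_zero_iff_of_eq_span w h.eq).2 ?_)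
      rintro ⟨_, ⟨a, b⟩, rfl⟩
      have e : (⟨d a - d b, mem a b⟩ : W) = ⟨_, mem a k0⟩ - ⟨_, mem b k0⟩ :=
        Subtype.ext (sub_sub_sub_cancel_right _ _ _).symm
      refine (congrArg w e).trans ?_
      rw [map_sub, h1, h1, sub_zero]
    exact (LinearMap.finrank_le_finrank_of_injective hinj).trans (Module.finrank_self ℂ).le

/-- **TNS** -/
theorem tns : TNS := by
  intro A _ _ A' _ _ ρ W σ ε _ hσ h0 h1 h2
  let ev : Tn W (ε.comp ρ) →ₗ[ℂ] ℂ := Module.Dual.eval ℂ W ⟨σ, hσ⟩ ∘ₗ (Tn W (ε.comp ρ)).subtype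
  let r : W →ₗ[ℂ] W.map ρ.toLinearMap := ρ.toLinearMap.submoduleMap W
  have hr : Function.Surjective r := ρ.toLinearMap.submoduleMap_surjective W
  have hle : (LinearMap.ker ev).map (Tn W (ε.comp ρ)).subtype ≤
      (Tn (W.map ρ.toLinearMap) ε).map r.dualMap := by
    rintro _ ⟨⟨w, l, hl⟩, hw, rfl⟩
    have hw' : w ⟨σ, hσ⟩ = 0 := hw
    obtain ⟨w', e1⟩ := factor r w fun x hx => by
      obtain ⟨c, hc⟩ := h1 x x.2 (congrArg Subtype.val hx)
      have e : x = c • ⟨σ, hσ⟩ := Subtype.ext hc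
      rw [e, map_smul, hw', smul_zero]
    obtain ⟨l', e2⟩ := factor (ρ.toLinearMap ∘ₗ (W * W).subtype) (l ∘ₗ (W * W).subtype)
      fun x hx => by
        obtain ⟨t, ht, hc⟩ := h2 x x.2 hx
        have e := hl ⟨t, ht⟩ ⟨σ, hσ⟩
        simp only [hw', AlgHom.comp_apply, h0, map_zero, mul_zero, add_zero] at e
        exact (congrArg l hc).trans e
    refine ⟨w', ⟨l', fun s t => ?_⟩, LinearMap.ext e1⟩
    obtain ⟨s, rfl⟩ := hr s
    obtain ⟨t, rfl⟩ := hr t
    rw [e1, e1]
    exact ((congrArg l' (map_mul ρ s.1 t.1)).symm.trans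
      (e2 ⟨_, Submodule.mul_mem_mul s.2 t.2⟩)).trans (hl s t)
  have a1 := ev.finrank_range_add_finrank_ker
  have a2 : finrank ℂ (LinearMap.range ev) ≤ 1 :=
    (Submodule.finrank_le _).trans (Module.finrank_self ℂ).le
  have a3 := Submodule.finrank_mono hle
  rw [Submodule.finrank_map_subtype_eq] at a3
  have a4 := Submodule.finrank_map_le r.dualMap (Tn (W.map ρ.toLinearMap) ε)
  omega

/-- **GNS** -/
theorem gns : GNS := by
  intro A _ _ A' _ _ ρ R σ hσ h1 h2 h3 m
  induction m with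
  | zero => rw [zero_add, pow_one]
  | succ m ih =>
    intro f hf
    have h4 := h2 m f hf
    rw [← Submodule.map_pow] at h4
    obtain ⟨g, hg, e⟩ := h4
    obtain ⟨t, ht, e2⟩ := h3 m (f - g) (sub_mem hf (h1 (m + 1) hg))
      (by rw [map_sub]; exact sub_eq_zero.2 e.symm)
    rw [← sub_add_cancel f g, e2]
    refine add_mem ?_ hg
    rw [pow_succ]
    exact Submodule.mul_mem_mul (ih ht) hσ

end Vale.Agent.P280Z.En
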