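import Vale.Agent.P280Z.En.Defs

/-!
# P280Z, block EN: the map to the Grassmannian
-/

open scoped Manifold ContDiff Topology Matrix
open Set Filter
open Vale.Agent.P272.K Vale.Agent.P285.H281.FD Vale.Agent.P281Z Vale.Agent.P280Z.Ld
open Vale.Agent.P277Z (Hol hol_const at_chart)
open Vale.Agent.P277Z.Slc (dd isLB_can)

set_option linter.unusedSectionVars false

noncomputable section

namespace Vale.Agent.P280Z.En

namespace PlkH

theorem detC_smul {n p d : ℕ} (σ : Fin p ⊕ Fin d ≃ Fin n) (g : ℂ) (C : Matrix (Fin n) (Fin p) ℂ)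
    (E : Matrix (Fin n) (Fin d) ℂ) : detC σ (g • C) E = g ^ p * detC σ C E := by
  have h : (Matrix.fromCols (g • C) E).submatrix id σ.symm = Matrix.of fun i j =>
      Sum.elim (fun _ => g) (fun _ => 1) (σ.symm j) *
        (Matrix.fromCols C E).submatrix id σ.symm i j := by
    ext i j
    rcases k : σ.symm j with l | l <;> simp [k]
  rw [detC, h, Matrix.det_mul_row, σ.symm.prod_comp, Fintype.prod_sum_type, detC]
  simp

theorem dec_smul {M : M5} (h : Dec M) {r : ℂ} (hr : r ≠ 0) : Dec (r • M) := by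
  obtain ⟨h0, u, v, rfl⟩ := h
  refine ⟨smul_ne_zero hr h0, r • u, v, ?_⟩
  ext a b
  simp only [wd, Matrix.smul_apply, Matrix.of_apply, Pi.smul_apply, smul_eq_mul]
  ring

variable {n : ℕ} {X : Type} [TopologicalSpace X] [ChartedSpace (Cm n) X] {L : Bd X} {x : X}
  {e : Chart n X}

theorem pm_mulVec {N : ℕ} (s : Fin N → L.ι → X → ℂ) (a : L.ι) (y : Fin (n + 1) → ℂ) (j : Fin N) :
    (Pm s a e x *ᵥ y) j = s j a x * y 0 + dd (s j a) e x (Fin.tail y) := by
  conv_rhs => rw [pi_eq_sum_univ' (Fin.tail y)]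
  simp [Matrix.mulVec, dotProduct, Fin.sum_univ_succ, Pm, Fin.tail, mul_comm]

theorem quad {N : ℕ} {u : Fin N → X → ℂ} {B : Matrix (Fin N) (Fin N) ℂ} (hB : Bᵀ = B)
    (hu : ∀ j, Hol n (u j) x) (h : ∀ y, ∑ i, ∑ j, B i j * (u i y * u j y) = 0) (he : At e x)
    (v : Cm n) : ∑ i, ∑ j, B i j * (u i x * dd (u j) e x v) = 0 := by
  have d := fun j => (hu j e he).differentiableAt.hasFDerivAt
  have h1 := HasFDerivAt.fun_sum (u := Finset.univ) fun i _ =>
    HasFDerivAt.fun_sum (u := Finset.univ) fun j _ => ((d i).fun_mul (d j)).const_mul (B i j)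
  simp only [h, e.left_inv he.2] at h1
  have h2 := congrArg (· v) (h1.unique (hasFDerivAt_const 0 _))
  simp only [sum_apply, smul_apply, add_apply, smul_eq_mul, mul_add, Finset.sum_add_distrib,
    zero_apply] at h2
  refine add_self_eq_zero.1 ((congrArg _ ?_).trans h2)
  rw [Finset.sum_comm]
  exact Finset.sum_congr rfl fun i _ => Finset.sum_congr rfl fun j _ =>
    congrArg (· * _) (congrFun₂ hB i j)

variable [IsManifold 𝓘(ℂ, Cm n) ω X]

theorem inj {N : ℕ} {s : Fin N → L.ι → X → ℂ} (hv : Va n L s) {a : L.ι} (ha : x ∈ L.U a)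
    (he : At e x) (y : Fin (n + 1) → ℂ) (h : Pm s a e x *ᵥ y = 0) : y = 0 := by
  have h1 : ∀ j, dd (s j a) e x (Fin.tail y) = -(s j a x * y 0) := fun j =>
    eq_neg_of_add_eq_zero_right ((pm_mulVec s a y j).symm.trans (congrFun h j))
  have h2 := hv.tan x a e _ ha he fun j k => by rw [h1, h1]; ring
  obtain ⟨j, hj⟩ := not_forall.1 (fun k => (hv.bpf ▸ (k : x ∈ Bs L s) : x ∈ (∅ : Set X)))
  have h3 := h1 j
  rw [h2, map_zero, zero_eq_neg, mul_eq_zero] at h3
  rw [← Fin.cons_self_tail y, h2, h3.resolve_left (not_not.1 hj a ha)]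
  exact funext fun i => Fin.cases rfl (fun _ => rfl) i

/-- division by a family of sections without common zero -/
theorem div_sec (hL : IsLB n L) {κ : Type} {p J : κ → L.ι → X → ℂ} {m : L.ι → X → ℂ}
    (hp : ∀ ν, IsSec n (L.pow 2) (p ν)) (hJ : ∀ ν, IsSec n (L.pow 3) (J ν))
    (h : ∀ a, ∀ x ∈ L.U a, (∃ ν, p ν a x ≠ 0) ∧ ∀ ν, J ν a x = m a x * p ν a x) : IsSec n L m := by
  refine isSec_of (fun a x ha => ?_) fun a b x ha hb => ?_
  · obtain ⟨ν, hν⟩ := (h a x ha).1
    have k := sec_hol (hp ν) (a := a) ha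
    refine ((sec_hol (hJ ν) (a := a) ha).div k hν).congr ?_
    filter_upwards [lb_near hL ha, k.ne_near hν] with y h1 h2
    rw [(h a y h1).2 ν, mul_div_cancel_right₀ _ h2]
  · obtain ⟨ν, hν⟩ := (h b x hb).1
    have h1 : J ν a x = L.g a b x ^ 3 * J ν b x := (hJ ν).change a b x ha hb
    have h2 : p ν a x = L.g a b x ^ 2 * p ν b x := (hp ν).change a b x ha hb
    rw [(h a x ha).2, (h b x hb).2, h2] at h1
    refine mul_right_cancel₀ (mul_ne_zero (pow_ne_zero 2 (hL.ne_zero a b x ha hb)) hν) ?_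
    rw [h1]
    ring

theorem sec_jn {s : Fin 10 → L.ι → X → ℂ} (hs : ∀ j, IsSec n L (s j))
    (B : Fin 5 → Matrix (Fin 10) (Fin 10) ℂ) (ν : Matrix (Fin 10) (Fin 3) ℂ) (a' b' : Fin 5) :
    IsSec n (L.pow 3) fun a x => jn (Dq B (fun j => s j a x) * ν) a' b' := by
  refine isSec_of (fun a x ha => hol_det fun i j => ?_) fun a b x ha hb => ?_
  · simp only [Matrix.submatrix_apply, id]
    rcases finSumFinEquiv.symm j with l | l
    · simp only [Matrix.fromCols_apply_inl, Matrix.mul_apply, Dq, Matrix.of_apply, Matrix.vecMul,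
        dotProduct]
      exact Hol.sum _ fun k _ => (Hol.sum _ fun r _ =>
        (sec_hol (hs r) ha).mul (hol_const _ _)).mul (hol_const _ _)
    · exact hol_const _ _
  · have h : Dq B (fun j => s j a x) = L.g a b x • Dq B fun j => s j b x := by
      ext k j
      simp only [Dq, Matrix.of_apply, Matrix.smul_apply, Matrix.vecMul, dotProduct, smul_eq_mul,
        Finset.mul_sum, (hs _).change a b x ha hb, mul_assoc]
    rw [h, Matrix.smul_mul]
    exact detC_smul _ _ _ _

end PlkH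

open PlkH in
theorem plk_of (iso : Ld.ISO) (wr : WR) (pla : PLA) : PLK := fun V L s B hv hΓ ⟨t, ht⟩ hB hq hk => by
  have hL := hv.lb
  have hs := fun j => (hv.sec j).1
  have hK := lb_mul (isLB_can (n := 6) (W := V.X)) (lb_pow hL 7)
  obtain ⟨-, Φ, hΦ⟩ := iso V _ _ t (lb_pow hL 2) hK ht
  have hq' : ∀ k a y, ∑ i, ∑ j, B k i j * (s i a y * s j a y) = 0 := fun k a y => by
    simpa only [Finset.sum_apply, Pi.smul_apply, Pi.mul_apply, smul_eq_mul, Pi.zero_apply]
      using congrFun₂ (hq k) a y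
  have key := fun a x (ha : x ∈ L.U a) => pla (Dq B fun j => s j a x) (Pm s a (chartAt _ x) x)
    (by
      ext k l
      simp only [Matrix.mul_apply, Dq, Matrix.of_apply, Matrix.vecMul, dotProduct, Finset.sum_mul,
        Matrix.zero_apply, mul_comm (s _ a x) (B k _ _), mul_assoc]
      rw [Finset.sum_comm]
      exact Fin.cases (hq' k a x)
        (fun l => quad (hB k) (fun j => sec_hol (hs j) ha) (hq' k a) (at_chart x) _) l)
    (inj hv ha (at_chart x)) (hk a x ha)
  choose! h1 M h2 h3 using key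
  have h0 := fun a x (ha : x ∈ L.U a) => ht.ne a (chartAt _ x, a) x ha ⟨at_chart x, ha⟩
  have hm := fun a' b' => div_sec hL (m := fun a x => (t a (chartAt _ x, a) x)⁻¹ * M a x a' b')
    (fun ν => (Φ ⟨_, nm_mem hK (wr V L s (finSumFinEquiv (m := 7) (n := 3)) ν hL hs)⟩).2.1)
    (fun ν => sec_jn hs B ν a' b') fun a x ha => by
      have k : x ∈ ((Bd.can 6 V.X).mul (L.pow 7)).U (chartAt _ x, a) := ⟨at_chart x, ha⟩
      simp only [hΦ _ a _ x ha k, nm_of k]
      refine ⟨(h1 a x ha).imp fun ν => mul_ne_zero (h0 a x ha), fun ν => ?_⟩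
      rw [h3 a x ha, mul_mul_mul_comm, inv_mul_cancel₀ (h0 a x ha), one_mul, mul_comm]
      rfl
  choose c hc using fun a' b' =>
    (Submodule.mem_span_range_iff_exists_fun ℂ).1 (hΓ ▸ nm_mem hL (hm a' b'))
  refine ⟨⟨⟨fun v => Matrix.of fun a' b' => c a' b' ⬝ᵥ v, fun v w => ?_⟩, fun r v => ?_⟩,
    fun a x ha => ?_⟩
  · ext
    simp
  · ext
    simp
  · refine (congrArg Dec (Matrix.ext fun a' b' => ?_)).mp
      (dec_smul (h2 a x ha) (inv_ne_zero (h0 a x ha)))
    exact ((sum_apply' _ s a x).symm.trans ((congrFun₂ (hc a' b') a x).trans (nm_of ha))).symm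

end Vale.Agent.P280Z.En
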