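import Vale.Agent.P280Z.En.Md
import Vale.Agent.P280Z.En.Alg
import Vale.Agent.P280Z.En.Val
import Vale.Agent.P280Z.En.Plk
import Vale.Agent.P280Z.En.Fld

/-!
# P280Z, block EN: manifolds of minimal degree; projective spaces and quadrics
-/

open scoped Manifold ContDiff Topology Matrix
open Set Filter
open Vale.Agent.P272.K Vale.Agent.P285.H281.FD Vale.Agent.P281Z Vale.Agent.P280Z.Ld
open Vale.Agent.P277Z.Slc (dd)
open Module (finrank)

noncomputable section

namespace Vale.Agent.P280Z.En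

section alg
variable {A : Type} [CommRing A] [Algebra ℂ A] {N : ℕ}

/-- `B` is a quadratic relation -/
def Rl (s : Fin N → A) (B : Matrix (Fin N) (Fin N) ℂ) : Prop :=
  Bᵀ = B ∧ ∑ i, ∑ j, B i j • (s i * s j) = 0

/-- the common kernel of the differentials at `φ` of the quadratic relations -/
def Kq (s : Fin N → A) (φ : Fin N → ℂ) : Submodule ℂ (Fin N → ℂ) where
  carrier := {w | ∀ B, Rl s B → φ ⬝ᵥ B *ᵥ w = 0}
  add_mem' h h' B k := by rw [Matrix.mulVec_add, dotProduct_add, h B k, h' B k, add_zero]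
  zero_mem' B _ := by rw [Matrix.mulVec_zero, dotProduct_zero]
  smul_mem' c _ h B k := by rw [Matrix.mulVec_smul, dotProduct_smul, h B k, smul_zero]

theorem dot_eq (φ w : Fin N → ℂ) (B : Matrix (Fin N) (Fin N) ℂ) :
    φ ⬝ᵥ B *ᵥ w = ∑ i, ∑ j, B i j * (φ i * w j) := by
  simp only [dotProduct, Matrix.mulVec, Finset.mul_sum, mul_left_comm]

theorem kq_le {W : Submodule ℂ A} (b : Module.Basis (Fin N) ℂ W) (ε : A →ₐ[ℂ] ℂ) :
    finrank ℂ (Kq (fun j => (b j).1) fun j => ε (b j).1) ≤ finrank ℂ (Tn W ε) := by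
  have := Module.Finite.of_basis b
  let e := b.constr (M' := ℂ) ℂ
  rw [← e.finrank_map_eq]
  refine Submodule.finrank_mono ?_
  rintro _ ⟨w, hw, rfl⟩
  obtain ⟨l, hl⟩ : (Fintype.linearCombination ℂ fun p : Fin N × Fin N =>
      ε (b p.1).1 * w p.2 + w p.1 * ε (b p.2).1) ∈ LinearMap.range
        (Fintype.linearCombination ℂ fun p : Fin N × Fin N => (b p.1).1 * (b p.2).1).dualMap := by
    rw [LinearMap.range_dualMap_eq_dualAnnihilator_ker, Submodule.mem_dualAnnihilator]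
    intro c hc
    rw [LinearMap.mem_ker, Fintype.linearCombination_apply, Fintype.sum_prod_type] at hc
    have k := hw (Matrix.of fun i j => c (i, j) + c (j, i)) ⟨Matrix.ext fun i j => add_comm _ _, by
      simp only [Matrix.of_apply, add_smul, Finset.sum_add_distrib, hc, zero_add]
      rw [Finset.sum_comm]
      simpa only [mul_comm] using hc⟩
    rw [dot_eq] at k
    simp only [Matrix.of_apply, add_mul, Finset.sum_add_distrib] at k
    rw [Finset.sum_comm (f := fun i j => c (j, i) * _)] at k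
    simpa only [Fintype.linearCombination_apply, Fintype.sum_prod_type, smul_eq_mul, mul_add,
      Finset.sum_add_distrib, mul_comm (w _)] using k
  refine ⟨l, fun x y => ?_⟩
  have h5 : ((LinearMap.mul ℂ A).compl₁₂ W.subtype W.subtype).compr₂ l =
      (LinearMap.mul ℂ ℂ).compl₁₂ (ε.toLinearMap ∘ₗ W.subtype) (e w) +
        (LinearMap.mul ℂ ℂ).compl₁₂ (e w) (ε.toLinearMap ∘ₗ W.subtype) :=
    LinearMap.ext_basis b b fun i j => by
      simpa [e] using LinearMap.congr_fun hl (Pi.single (i, j) 1)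
  exact LinearMap.congr_fun₂ h5 x y

end alg

variable {T : CT} {n D : ℕ}

open Fld

/-- the affine tangent space -/
def Tc {V : Mf n} {L : Bd V.X} {ι : Type} [Fintype ι] (s : ι → L.ι → V.X → ℂ) (a : L.ι)
    (e : Chart n V.X) (x : V.X) : Submodule ℂ (ι → ℂ) :=
  LinearMap.range (Pz (Fz s a e) (e x)).toLinearMap

section
variable {V : Mf n} {L : Bd V.X} {ι : Type} [Fintype ι] {s : ι → L.ι → V.X → ℂ} {a : L.ι}
  {e : Chart n V.X} {x : V.X}

theorem mem_Tc (h : Va n L s) (ha : x ∈ L.U a) (he : At e x) {w : ι → ℂ} :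
    w ∈ Tc s a e x ↔ ∃ c v, w = fun j => c * s j a x + dd (s j a) e x v :=
  ⟨fun ⟨u, k⟩ => ⟨u.1, u.2, k.symm.trans (Pz_eq h ha he _ _)⟩,
    fun ⟨c, v, k⟩ => ⟨(c, v), (Pz_eq h ha he _ _).trans k.symm⟩⟩

theorem finrank_Tc (h : Va n L s) (ha : x ∈ L.U a) (he : At e x) : finrank ℂ (Tc s a e x) = n + 1 :=
  (LinearMap.finrank_range_of_inj (Pz_inj h ha he)).trans (by simp [add_comm])

/-- vector fields from linear maps -/
theorem gen_lin (h : Va n L s) (k : ∀ a x e, x ∈ L.U a → At e x → ∀ w ∈ Tc s a e x,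
    ∃ A : (ι → ℂ) →ₗ[ℂ] (ι → ℂ), (A fun j => s j a x) = w ∧
      ∀ a x e, x ∈ L.U a → At e x → (A fun j => s j a x) ∈ Tc s a e x) : Gp.Gen n V.X := by
  intro e x he v
  obtain ⟨a, ha⟩ := h.lb.cover x
  obtain ⟨A, h1, h2⟩ := k a x e ha he _ ((mem_Tc h ha he).2 ⟨0, v, rfl⟩)
  obtain ⟨ξ, h3, h4⟩ := fld V L _ s A h fun a x e ha he => (mem_Tc h ha he).1 (h2 a x e ha he)
  exact ⟨ξ, h3, R.uniq h ha he (h4 a x e ha he) ⟨0, h1⟩⟩

end

section
variable {V : Mf n} {L : Bd V.X} {N : ℕ} {s : Fin N → L.ι → V.X → ℂ} {a : L.ι}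
  {e : Chart n V.X} {x : V.X} {B : Matrix (Fin N) (Fin N) ℂ}

theorem Rl.at (h : Rl s B) (a : L.ι) (x : V.X) : ∑ i, ∑ j, B i j * (s i a x * s j a x) = 0 := by
  simpa [Finset.sum_apply] using congrFun₂ h.2 a x

theorem Tc_le (h : Va n L s) (ha : x ∈ L.U a) (he : At e x) : Tc s a e x ≤ Kq s fun j => s j a x :=
  fun w hw B hB => by
    obtain ⟨c, v, rfl⟩ := (mem_Tc h ha he).1 hw
    have k := PlkH.quad hB.1 (fun j => sec_hol (h.sec j).1 ha) (hB.at a) he v
    simp only [dot_eq, mul_add, Finset.sum_add_distrib, k, add_zero, mul_left_comm _ c,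
      ← Finset.mul_sum, hB.at a x, mul_zero]

end

/-- **the embedding of a manifold of minimal degree** -/
theorem MD.emb (hT : T.OK) {V : Mf (n + 1)} {L : Bd V.X} {β : T.H V} (h : MD T V L β D)
    {N : ℕ} (b : Module.Basis (Fin N) ℂ (Γ (n + 1) L)) : N = D + n + 1 ∧
      Va (n + 1) L (fun j => (b j).1) ∧ ∀ a x e, x ∈ L.U a → At e x →
        Tc (fun j => (b j).1) a e x = Kq (fun j => (b j).1) fun j => (b j).1 a x := by
  obtain ⟨h1, h2⟩ := h.gen tns gns hT
  have va := val_of Ld.va V L _ (fun j => (b j).1) h.lb (hT.kp V L h.lb h.kc) h.bpf h2 (by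
    rw [show range (fun j => (b j).1) = (Γ (n + 1) L).subtype '' range b from range_comp _ _,
      ← Submodule.map_span, b.span_eq, Submodule.map_top, Submodule.range_subtype])
  refine ⟨by rw [← h1, h0, Module.finrank_eq_card_basis b, Fintype.card_fin], va,
    fun a x e ha he => Submodule.eq_of_le_of_finrank_le (Tc_le va ha he) ?_⟩
  rw [finrank_Tc va ha he]
  exact (kq_le b (evA L a x)).trans (h.tan tns gns hT va a x ha)

theorem MD.basis (hT : T.OK) {V : Mf (n + 1)} {L : Bd V.X} {β : T.H V} (h : MD T V L β D) :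
    Nonempty (Module.Basis (Fin (D + n + 1)) ℂ (Γ (n + 1) L)) :=
  have := fin V L ((hT.po.kah V).2 ⟨_, h.kc⟩) h.lb
  ⟨Module.finBasisOfFinrankEq ℂ _ (h.gen tns gns hT).1⟩

/-- **degree one** -/
theorem ko1 (hT : T.OK) {V : Mf (n + 1)} {L : Bd V.X} {β : T.H V} (h : MD T V L β 1) :
    Gp.Gen (n + 1) V.X := by
  obtain ⟨b⟩ := h.basis hT
  obtain ⟨-, va, -⟩ := h.emb hT b
  refine gen_lin va fun a x e ha he w _ => ?_
  obtain ⟨l, hl⟩ := not_forall.1 fun k => (va.bpf ▸ (k : x ∈ Bs L _) : x ∈ (∅ : Set V.X))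
  refine ⟨((b l).1 a x)⁻¹ • (LinearMap.proj l).smulRight w, by
    simp [smul_smul, inv_mul_cancel₀ (not_not.1 hl a ha)], fun a x e ha he => ?_⟩
  rw [Submodule.eq_top_of_finrank_eq (S := Tc _ a e x) (by simp [finrank_Tc va ha he]; omega)]
  trivial

/-- **degree two** -/
theorem ko2 (hT : T.OK) {V : Mf (n + 1)} {L : Bd V.X} {β : T.H V} (h : MD T V L β 2) :
    Gp.Gen (n + 1) V.X := by
  obtain ⟨b⟩ := h.basis hT
  obtain ⟨-, va, k⟩ := h.emb hT b
  refine gen_lin va fun a x e ha he w hw => ?_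
  obtain ⟨u, hu⟩ : ∃ u, u ∉ Kq (fun j => (b j).1) fun j => (b j).1 a x := by
    by_contra! c
    have := finrank_Tc va ha he
    rw [k a x e ha he, Submodule.eq_top_iff'.2 c] at this
    simp at this
    omega
  obtain ⟨B, hB, h0⟩ : ∃ B, Rl (fun j => (b j).1) B ∧ (fun j => (b j).1 a x) ⬝ᵥ B *ᵥ u ≠ 0 := by
    by_contra! c
    exact hu c
  let q : (Fin (2 + n + 1) → ℂ) → (Fin (2 + n + 1) → ℂ) →ₗ[ℂ] ℂ := fun v =>
    (dotProductBilin ℂ ℂ v).comp B.mulVecLin
  have sy : ∀ v v', q v v' = v' ⬝ᵥ B *ᵥ v := fun v v' => by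
    change v ⬝ᵥ B *ᵥ v' = _
    rw [Matrix.dotProduct_mulVec, ← Matrix.mulVec_transpose, hB.1, dotProduct_comm]
  refine ⟨((fun j => (b j).1 a x) ⬝ᵥ B *ᵥ u)⁻¹ • ((q u).smulRight w - (q w).smulRight u), ?_,
    fun a' y e' ha' he' => Submodule.smul_mem _ _ ?_⟩
  · rw [LinearMap.smul_apply, LinearMap.sub_apply, LinearMap.smulRight_apply,
      LinearMap.smulRight_apply, sy, sy, Tc_le va ha he hw B hB, zero_smul, sub_zero,
      inv_smul_smul₀ h0]
  rw [LinearMap.sub_apply, LinearMap.smulRight_apply, LinearMap.smulRight_apply, sy, sy]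
  by_cases c : q (fun j => (b j).1 a' y) = 0
  · have c' : ∀ v, (fun j => (b j).1 a' y) ⬝ᵥ B *ᵥ v = 0 := LinearMap.congr_fun c
    rw [c', c', zero_smul, zero_smul, sub_zero]
    exact zero_mem _
  rw [Submodule.eq_of_le_of_finrank_le (S₂ := LinearMap.ker (q fun j => (b j).1 a' y))
    (fun v hv => Tc_le va ha' he' hv B hB) (by
      have := Module.Dual.finrank_ker_add_one_of_ne_zero c
      simp only [Module.finrank_fintype_fun_eq_card, Fintype.card_fin] at this
      rw [finrank_Tc va ha' he']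
      omega), LinearMap.mem_ker, map_sub, map_smul, map_smul]
  exact sub_eq_zero.2 (mul_comm _ _)

end Vale.Agent.P280Z.En
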