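import Vale.Agent.P280Z.En.Defs

/-!
# P280Z, block EN: the coordinates of the image of a matrix (row PLA)
-/

open Matrix
open Vale.Agent.P281Z
open Module (finrank)

noncomputable section

namespace Vale.Agent.P280Z.En

namespace PlaH

variable {p d n q : ℕ} (κ : Fin p ⊕ Fin d ≃ Fin n) {N : Matrix (Fin n) (Fin p) ℂ}
  {B : Matrix (Fin n) (Fin d) ℂ}

theorem detC_mul (N : Matrix (Fin n) (Fin p) ℂ) (B : Matrix (Fin n) (Fin d) ℂ)
    (β : Matrix (Fin p) (Fin p) ℂ) (α : Matrix (Fin p) (Fin d) ℂ) (γ : Matrix (Fin d) (Fin d) ℂ) :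
    detC κ (N * β) (N * α + B * γ) = detC κ N B * (β.det * γ.det) := by
  rw [← det_fromBlocks_zero₂₁ β α γ, ← det_submatrix_equiv_self κ.symm, detC, detC, ← det_mul,
    submatrix_mul_equiv, fromCols_mul_fromBlocks, Matrix.mul_zero, add_zero]

theorem rank_eq (h : ∀ y, N *ᵥ y = 0 → y = 0) : finrank ℂ (LinearMap.range N.mulVecLin) = p := by
  rw [LinearMap.finrank_range_of_inj (LinearMap.ker_eq_bot.1 (LinearMap.ker_eq_bot'.2 h)),
    Module.finrank_fin_fun]

/-- independent columns are part of a basis -/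
theorem compl (h : ∀ y, N *ᵥ y = 0 → y = 0) :
    ∃ B, detC κ N B ≠ 0 ∧ ∀ w y, N *ᵥ w = B *ᵥ y → y = 0 := by
  obtain ⟨Q, hQ⟩ := (LinearMap.range N.mulVecLin).exists_isCompl
  have h1 := Submodule.finrank_add_eq_of_isCompl hQ
  have h2 := Fintype.card_congr κ
  rw [rank_eq h, Module.finrank_fin_fun] at h1
  simp only [Fintype.card_sum, Fintype.card_fin] at h2
  let ε : (Fin d → ℂ) ≃ₗ[ℂ] Q := LinearEquiv.ofFinrankEq _ _ (by rw [Module.finrank_fin_fun]; omega)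
  have h3 : ∀ w y, N *ᵥ w = LinearMap.toMatrix' (Q.subtype ∘ₗ ε.toLinearMap) *ᵥ y → y = 0 :=
    fun w y k => by
      rw [LinearMap.toMatrix'_mulVec] at k
      exact ε.map_eq_zero_iff.1 (Subtype.ext
        (Submodule.disjoint_def.1 hQ.disjoint _ ⟨w, k⟩ (ε y).2))
  refine ⟨_, fun k => ?_, h3⟩
  obtain ⟨v, h4, h5⟩ := exists_mulVec_eq_zero_iff.2 k
  rw [submatrix_mulVec_equiv, Function.comp_id, ← Sum.elim_comp_inl_inr (v ∘ _),
    fromCols_mulVec_sumElim, add_eq_zero_iff_neg_eq, ← mulVec_neg] at h5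
  have h6 := h3 _ _ h5
  rw [h6, mulVec_zero] at h5
  refine h4 (funext fun i => ?_)
  obtain ⟨j | j, rfl⟩ := κ.surjective i
  · exact congrFun (neg_eq_zero.1 (h _ h5)) j
  · exact congrFun h6 j

theorem span (h : detC κ N B ≠ 0) (X : Matrix (Fin n) (Fin q) ℂ) :
    ∃ (α : Matrix (Fin p) (Fin q) ℂ) (γ : Matrix (Fin d) (Fin q) ℂ), X = N * α + B * γ := by
  refine ⟨((((fromCols N B).submatrix id κ.symm)⁻¹ * X).submatrix κ id).toRows₁,
    ((((fromCols N B).submatrix id κ.symm)⁻¹ * X).submatrix κ id).toRows₂, ?_⟩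
  rw [← fromCols_mul_fromRows, fromRows_toRows]
  refine (mul_nonsing_inv_cancel_left _ X h.isUnit).symm.trans ?_
  rw [← submatrix_id_id (fromCols N B * _), ← submatrix_mul_equiv _ _ _ κ.symm]
  simp

end PlaH

open PlaH

/-- **row PLA** -/
theorem pla : PLA := by
  intro D P h0 hP hD
  let κ : Fin 7 ⊕ Fin 3 ≃ Fin 10 := finSumFinEquiv
  let κ' : Fin 3 ⊕ Fin 2 ≃ Fin 5 := finSumFinEquiv
  obtain ⟨ν₀, h1, h2⟩ := compl κ hP
  have h3 : LinearMap.range P.mulVecLin = LinearMap.ker D.mulVecLin :=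
    Submodule.eq_of_le_of_finrank_le (by
      rintro _ ⟨y, rfl⟩
      exact (mulVec_mulVec y D P).trans (by rw [h0, zero_mulVec])) (by rwa [rank_eq hP])
  obtain ⟨B, h4, h5⟩ := compl κ' (N := D * ν₀) fun y hy => by
    obtain ⟨w, hw⟩ := h3.ge (show ν₀ *ᵥ y ∈ _ from (mulVec_mulVec y D ν₀).trans hy)
    exact h2 w y hw
  obtain ⟨α, G, h6⟩ := span _ h4 (1 : M5)
  have h7 : ∀ a b, detC κ' (D * ν₀) (Eab a b) =
      detC κ' (D * ν₀) B * (G 0 a * G 1 b - G 0 b * G 1 a) := fun a b => by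
    have k := detC_mul κ' (D * ν₀) B 1 (α * Eab a b) (G * Eab a b)
    rw [← Matrix.mul_assoc, ← Matrix.mul_assoc, ← Matrix.add_mul, ← h6, Matrix.one_mul,
      Matrix.mul_one, det_one, one_mul, det_fin_two] at k
    have e : ∀ i j, (G * Eab a b) i j = G i (![a, b] j) := fun i j => by
      simp only [Eab, mul_apply, of_apply, mul_ite, mul_one, mul_zero, Finset.sum_ite_eq',
        Finset.mem_univ, if_true]
    simpa only [e, cons_val_zero, cons_val_one] using k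
  have h8 : ∀ y, G *ᵥ (B *ᵥ y) = y := fun y => by
    refine (sub_eq_zero.1 (h5 (α *ᵥ (B *ᵥ y)) _ ?_)).symm
    rw [mulVec_sub, eq_sub_iff_add_eq, mulVec_mulVec, mulVec_mulVec _ B, ← add_mulVec, ← h6,
      one_mulVec]
  refine ⟨⟨ν₀, h1⟩, wd (((detC κ P ν₀)⁻¹ * detC κ' (D * ν₀) B) • G 0) (G 1),
    ⟨fun k => ?_, _, _, rfl⟩, fun ν a b => ?_⟩
  · have k1 : ∀ a b, G 0 a * G 1 b = G 0 b * G 1 a := fun a b =>
      mul_left_cancel₀ (mul_ne_zero (inv_ne_zero h1) h4) (by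
        simpa only [mul_assoc, Pi.smul_apply, smul_eq_mul] using
          sub_eq_zero.1 (congrFun (congrFun k a) b))
    have k2 : ∀ y y' : Fin 5 → ℂ, (G *ᵥ y) 0 * (G *ᵥ y') 1 = (G *ᵥ y) 1 * (G *ᵥ y') 0 :=
      fun y y' => by
        simp only [mulVec, dotProduct, Finset.sum_mul_sum]
        exact Finset.sum_congr rfl fun a _ => Finset.sum_congr rfl fun b _ => by
          linear_combination y a * y' b * k1 a b
    have k3 := k2 (B *ᵥ Pi.single 0 1) (B *ᵥ Pi.single 1 1)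
    rw [h8, h8] at k3
    simp at k3
  · obtain ⟨α', β, rfl⟩ := span _ h1 ν
    have k1 := detC_mul κ P ν₀ 1 α' β
    have k2 := detC_mul κ' (D * ν₀) (Eab a b) β 0 1
    rw [Matrix.mul_one, det_one, one_mul] at k1
    rw [Matrix.mul_zero, Matrix.mul_one, zero_add, det_one, mul_one] at k2
    change detC κ' _ _ = detC κ _ _ * _
    rw [Matrix.mul_add, ← Matrix.mul_assoc, h0, Matrix.zero_mul, zero_add, ← Matrix.mul_assoc,
      k2, k1, h7, wd, of_apply, Pi.smul_apply, Pi.smul_apply]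
    simp only [smul_eq_mul]
    field_simp

end Vale.Agent.P280Z.En
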