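import Vale.Agent.P280Z.En.Defs
import Mathlib.Geometry.Manifold.Complex

/-!
# P280Z, block EN: determinants of values and derivatives, products of sections
-/

open scoped Manifold ContDiff Topology Matrix
open Set Filter Matrix
open Vale.Agent.P272.K Vale.Agent.P285.H281.FD Vale.Agent.P281Z Vale.Agent.P280Z.Ld
open Vale.Agent.P277Z (Hol at_chart hol_const)
open Vale.Agent.P277Z.Slc (dd dd_congr)

noncomputable section

namespace Vale.Agent.P280Z.En

namespace Wr

theorem detC_mul {n p d : ℕ} (σ : Fin p ⊕ Fin d ≃ Fin n) (N : Matrix (Fin n) (Fin p) ℂ)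
    (T : Matrix (Fin p) (Fin p) ℂ) (B : Matrix (Fin n) (Fin d) ℂ) :
    detC σ (N * T) B = detC σ N B * T.det := by
  have h : fromCols (N * T) B =
      fromCols N B * (fromBlocks T 0 0 1 : Matrix (Fin p ⊕ Fin d) (Fin p ⊕ Fin d) ℂ) := by
    simp [fromCols_mul_fromBlocks]
  rw [detC, detC, h, submatrix_mul _ _ _ σ.symm _ σ.symm.bijective, det_mul,
    det_submatrix_equiv_self, det_fromBlocks_zero₁₂, det_one, mul_one]

/-- the matrix of the change of frames and charts -/
def Tm {n : ℕ} (g : ℂ) (r : Fin n → ℂ) (J : Matrix (Fin n) (Fin n) ℂ) :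
    Matrix (Fin (n + 1)) (Fin (n + 1)) ℂ :=
  Matrix.of (Fin.cons (Fin.cons g r) fun l => Fin.cons 0 fun k => g * J l k)

theorem det_Tm {n : ℕ} (g : ℂ) (r : Fin n → ℂ) (J : Matrix (Fin n) (Fin n) ℂ) :
    (Tm g r J).det = J.det * g ^ (n + 1) := by
  have h : (Tm g r J).submatrix (Fin.succAbove 0) Fin.succ = g • J := by
    ext l k
    simp [Tm]
  rw [det_succ_column_zero, Fin.sum_univ_succ, h, det_smul]
  simp [Tm]
  ring

variable {n : ℕ} {X : Type} [TopologicalSpace X] [ChartedSpace (Cm n) X]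
  [IsManifold 𝓘(ℂ, Cm n) ω X] {x : X} {a b : X → ℂ} {e e' : Chart n X}

theorem hol_dd (ha : Hol n a x) (he : At e x) (v : Cm n) : Hol n (fun y => dd a e y v) x :=
  P277Z.hol_comp (f := fun z => fderiv ℂ (fun z => a (e.symm z)) z v) he
    (((ContinuousLinearMap.apply ℂ ℂ v).analyticAt _).comp (ha e he).fderiv)

omit [IsManifold 𝓘(ℂ, Cm n) ω X] in
theorem dd_mul' (ha : Hol n a x) (hb : Hol n b x) (he : At e x) (v : Cm n) :
    dd (fun y => a y * b y) e x v = a x * dd b e x v + b x * dd a e x v := by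
  have h := fderiv_fun_mul (ha e he).differentiableAt (hb e he).differentiableAt
  rw [e.left_inv he.2] at h
  exact DFunLike.congr_fun h v

theorem dd_chg (ha : Hol n a x) (he : At e x) (he' : At e' x) (k : Fin n) :
    dd a e x (Pi.single k 1) = ∑ l, dd a e' x (Pi.single l 1) * jacM e e' x l k := by
  have h := DFunLike.congr_fun (dd_comp (f := fun x => x) ha (holM_id.at x) he he') (Pi.single k 1)
  rw [h, ContinuousLinearMap.comp_apply, ← dfM_mulVec, dfM_id he he', mulVec_single_one]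
  conv_lhs => rw [pi_eq_sum_univ' ((jacM e e' x).col k), map_sum]
  refine Finset.sum_congr rfl fun l _ => ?_
  rw [map_smul, smul_eq_mul, mul_comm]
  rfl

theorem Pm_chg {N : ℕ} {L : Bd X} {s : Fin N → L.ι → X → ℂ} (hL : IsLB n L)
    (hs : ∀ j, IsSec n L (s j)) {c c' : L.ι} (hc : x ∈ L.U c) (hc' : x ∈ L.U c') (he : At e x)
    (he' : At e' x) : Pm s c e x = Pm s c' e' x *
      Tm (L.g c c' x) (fun k => dd (L.g c c') e x (Pi.single k 1)) (jacM e e' x) := by
  ext j k
  rw [mul_apply, Fin.sum_univ_succ]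
  refine Fin.cases ?_ (fun k => ?_) k
  · simp [Pm, Tm, (hs j).change c c' x hc hc', mul_comm]
  · have h : dd (s j c) e x = dd (fun y => L.g c c' y * s j c' y) e x := dd_congr (by
      filter_upwards [lb_near hL hc, lb_near hL hc'] with y k1 k2
        using (hs j).change c c' y k1 k2) he
    simp only [Pm, Tm, of_apply, Fin.cons_succ, Fin.cons_zero]
    rw [h, dd_mul' (lb_hol hL hc hc') (sec_hol (hs j) hc') he, dd_chg (sec_hol (hs j) hc') he he',
      Finset.mul_sum, add_comm]
    exact congrArg _ (Finset.sum_congr rfl fun l _ => mul_left_comm _ _ _)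

theorem const [CompactSpace X] [PreconnectedSpace X] (h : ∀ x, Hol n a x) : ∃ c, ∀ x, a x = c := by
  obtain ⟨c, hc⟩ := MDifferentiable.exists_eq_const_of_compactSpace (I := 𝓘(ℂ, Cm n)) (f := a)
    fun x => by
      have he := at_chart (n := n) x
      have h1 := ContMDiffAt.comp x (g := fun z => a ((chartAt (Cm n) x).symm z))
        (contMDiffAt_iff_contDiffAt.2 (h x _ he).contDiffAt) (chart_contMDiffAt he)
      exact (h1.congr_of_eventuallyEq ((at_near he).mono fun y hy =>
        (congrArg a hy.left_inv).symm)).mdifferentiableAt (by simp)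
  exact ⟨c, congrFun hc⟩

end Wr

open Wr

/-- **WR** -/
theorem wr : WR := by
  intro n N c V L s κ ν hL hs
  refine isSec_of (fun b x hb => hol_det fun i k => ?_) fun b b' x hb hb' => ?_
  · simp only [submatrix_apply, id]
    rcases κ.symm k with k | k
    · refine Fin.cases ?_ (fun k => ?_) k
      · exact sec_hol (hs i) hb.2
      · exact hol_dd (sec_hol (hs i) hb.2) hb.1 _
    · exact hol_const _ _
  · rw [Pm_chg hL hs hb.2 hb'.2 hb.1 hb'.1, detC_mul, det_Tm, mul_comm]
    rfl

/-- **POW** -/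
theorem pow_ : POW := by
  intro n V L hL
  have h1 : Rm n L 1 = Γ n L := Submodule.ext fun s =>
    ⟨fun h => ⟨⟨h.1.holo, fun a b x ha hb => (h.1.change a b x ha hb).trans
      (congrArg (· * s b x) (pow_one _))⟩, h.2⟩,
    fun h => ⟨⟨h.1.holo, fun a b x ha hb => (h.1.change a b x ha hb).trans
      (congrArg (· * s b x) (pow_one _).symm)⟩, h.2⟩⟩
  refine ⟨h1, fun m => ?_, fun hc => ?_⟩
  · induction m with
    | zero => rw [zero_add, pow_one, h1]
    | succ m ih =>
      rw [pow_succ]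
      refine Submodule.mul_le.2 fun s hs t ht => ⟨⟨fun a e x he ha =>
        ((ih hs).1.holo a e x he ha).mul (ht.1.holo a e x he ha), fun a b x ha hb => ?_⟩,
        fun a x ha => ?_⟩
      · change s a x * t a x = L.g a b x ^ (m + 1 + 1) * (s b x * t b x)
        rw [(ih hs).1.change a b x ha hb, ht.1.change a b x ha hb, pow_succ]
        exact mul_mul_mul_comm _ _ _ _
      · exact mul_eq_zero_of_right _ (ht.2 a x ha)
  have h2 : ∀ t ∈ Rm n L 0, ∃ c : ℂ, ∀ a, ∀ x ∈ L.U a, t a x = c := fun t ht => by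
    obtain ⟨f, hf⟩ := glue hL t (fun _ => True) fun a b x ha hb _ =>
      (ht.1.change a b x ha hb).trans (one_mul _)
    obtain ⟨c, k⟩ := const (n := n) (a := f) fun x => (hL.cover x).elim fun a ha =>
      (sec_hol ht.1 ha).congr ((lb_near hL ha).mono fun y hy => (hf a y hy trivial).symm)
    exact ⟨c, fun a x ha => (hf a x ha trivial).symm.trans (k x)⟩
  refine ⟨h2, fun ⟨x⟩ => ?_⟩
  have h3 : nm (L.pow 0) (fun _ _ => 1) ∈ Γ n (L.pow 0) := nm_mem (lb_pow hL 0)
    (isSec_of (fun _ x _ => hol_const 1 x) fun _ _ _ _ _ => (one_mul _).symm)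
  refine (finrank_eq_one_iff_of_nonzero' (⟨_, h3⟩ : Γ n (L.pow 0)) fun h => ?_).2 fun t => ?_
  · obtain ⟨a, ha⟩ := hL.cover x
    exact one_ne_zero ((nm_of (L := L.pow 0) (s := fun _ _ => 1) ha).symm.trans
      (congrFun (congrFun (congrArg Subtype.val h) a) x))
  · obtain ⟨c, k⟩ := h2 t.1 t.2
    refine ⟨c, Subtype.ext (Γ_ext (Submodule.smul_mem _ c h3) t.2 fun a y ha => ?_)⟩
    change c * nm (L.pow 0) (fun _ _ => 1) a y = _
    rw [nm_of ha, mul_one, k a y ha]

end Vale.Agent.P280Z.En
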