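import Vale.Agent.P280Z.En.Qe
import Vale.Agent.P280Z.Qs.Q4
import Vale.Agent.P280Z.Cv.Cs

/-!
# P280Z, block EN: the quadrics of dimension four and five
-/

open Vale.Agent.P272.K Vale.Agent.P285.H281.FD Vale.Agent.P281Z
open Vale.Agent.P277Z.Slc (lin isLB_can)
open Vale.Agent.P280Z.Gm
open Vale.Agent.P280Z.Mp (Eqs)

noncomputable section

namespace Vale.Agent.P280Z.En

variable {T : CT}

/-- the Hilbert polynomial of the anticanonical bundle has integral values -/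
theorem rr_nat (hT : T.OK) (hR : HRR T) {n : ℕ} {V : Mf n} (hF : Fa T V) (j : ℕ) :
    ∃ m : ℕ, T.RR V ((j : ℝ) • T.ps V (VB.tan n V.X) 1) = m := by
  have hb : ∀ a, IsLB n (![Bd.can n V.X] a) := Fin.forall_fin_one.2 isLB_can
  have c : T.c1 V (lin ![Bd.can n V.X] ![-(j : ℤ)]) = (j : ℝ) • T.ps V (VB.tan n V.X) 1 := by
    rw [hT.c1.lin V _ _ hb, Fin.sum_univ_one, hT.ch.tan]
    simp
  refine ⟨_, c ▸ (hR V _ (lb_lin hb _) ?_).symm⟩
  rw [Ld.Ap, c, hT.ch.tan, show (j : ℝ) • -T.c1 V (Bd.can n V.X) - T.c1 V (Bd.can n V.X) =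
    ((j : ℝ) + 1) • -T.c1 V (Bd.can n V.X) by module]
  exact hT.po.smul _ (by positivity) hF

/-- the anticanonical degree is an integer -/
theorem kint (hT : T.OK) (hR : HRR T) {n : ℕ} {V : Mf n} (hn : n ≤ 6) (hF : Fa T V) :
    ∃ m : ℤ, T.int V (T.ps V (VB.tan n V.X) 1 ^ n) = m := by
  choose m hm using rr_nat hT hR hF
  refine ⟨∑ j ∈ Finset.range (n + 1), (-1) ^ (n - j) * n.choose j * m j, ?_⟩
  push_cast
  simp only [← hm, CT.RR, Hr.coeff_td _ _ (hn.trans (by norm_num : 6 ≤ 9)), ← smul_eq_mul,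
    ← map_smul, ← map_sum]
  refine congrArg _ ?_
  clear hm hF
  interval_cases n <;>
  · simp only [Finset.sum_range_succ, Finset.sum_range_zero, Hr.tdx, Nat.choose, Nat.reduceSub,
      Nat.reduceAdd, smul_eq_mul]
    push_cast
    algebra

theorem c42 : Cv.CS 4 2 := fun _ t _ _ _ _ _ _ _ _ _ _ _ h _ _ =>
  have f := (fs_of h).fa h.ok
  qe (by norm_num) (by norm_num) h t.hrr
    (Qs.q4 h.ns ((rt _ h.ok t.hrr).1 _ h.fano.1 f) (kint h.ok t.hrr (by norm_num) f))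

theorem c53 : Cv.CS 5 3 := fun _ t _ _ _ _ _ _ _ _ _ _ _ h _ _ =>
  have f := (fs_of h).fa h.ok
  qe (by norm_num) (by norm_num) h t.hrr
    (Qs.q5 h.ns ((rt _ h.ok t.hrr).1 _ h.fano.1 f) (kint h.ok t.hrr (by norm_num) f))

end Vale.Agent.P280Z.En
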