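import Vale.Agent.P280Z.Qs.T61
import Vale.Agent.P280Z.Gz.Dq
import Vale.Agent.P280Z.R1.Xt

/-!
# P280Z: dimension six and pseudoindex three
-/

namespace Vale.Agent.P280Z.En

theorem c61 : Cv.CS 6 1 := fun T t _ _ _ _ _ _ _ _ _ F E s _ _ =>
  (Qs.t61 s.ns (R1.xt T t F E s) (Gz.plane t s (by norm_num)) (Gz.dq t s)).elim

end Vale.Agent.P280Z.En
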