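import Vale.Agent.P280Z.Ld.Api
import Vale.Agent.P280Z.Hr.Sk
import Vale.Agent.P280Z.Gp.Defs
import Vale.Agent.P281Z.Mf.Adj

/-!
# P280Z, block EN: del Pezzo manifolds of degree five (definitions, statements)
-/

open scoped Manifold ContDiff Topology Matrix
open Set Filter
open Vale.Agent.P272.K Vale.Agent.P285.H281.FD Vale.Agent.P281Z Vale.Agent.P280Z.Ld
open Vale.Agent.P277Z.Slc (dd)
open Vale.Agent.P277.HD (pull)
open Module (finrank)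

noncomputable section

namespace Vale.Agent.P280Z.En

/-! ### algebra -/

section alg
variable {A : Type} [CommRing A] [Algebra ℂ A]

/-- the tangent space at `ε` of the cone cut out by the quadratic relations of `W` -/
def Tn (W : Submodule ℂ A) (ε : A →ₐ[ℂ] ℂ) : Submodule ℂ (Module.Dual ℂ W) where
  carrier := {w | ∃ l : A →ₗ[ℂ] ℂ, ∀ s t : W, l (s.1 * t.1) = ε s.1 * w t + w s * ε t.1}
  add_mem' := fun ⟨l, h⟩ ⟨l', h'⟩ => ⟨l + l', fun s t => by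
    simp only [LinearMap.add_apply, h, h']; ring⟩
  zero_mem' := ⟨0, fun s t => by simp⟩
  smul_mem' := fun c _ ⟨l, h⟩ => ⟨c • l, fun s t => by
    simp only [LinearMap.smul_apply, h, smul_eq_mul]; ring⟩

/-- five points in general position in a space of dimension three -/
structure Five (W : Submodule ℂ A) (d : Fin 5 → A) : Prop where
  orth : ∀ j k, j ≠ k → d j * d k = 0
  eq : W = Submodule.span ℂ (range fun p : Fin 5 × Fin 5 => d p.1 - d p.2)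

end alg

/-- a statement for all algebras -/
def ForA (P : ∀ (A : Type) [CommRing A] [Algebra ℂ A], Prop) : Prop :=
  ∀ (A : Type) [CommRing A] [Algebra ℂ A], P A

/-- **ALB**: five points -/
def ALB : Prop := ForA fun A _ _ => ∀ (W : Submodule ℂ A) (d : Fin 5 → A), Five W d →
  (∀ m j, d j ^ (m + 2) ∈ W ^ (m + 2)) ∧
    ∀ (ε : A →ₐ[ℂ] ℂ) j, ε (d j) ≠ 0 → finrank ℂ (Tn W ε) ≤ 1

/-- **TNS**: tangent spaces of hyperplane sections -/
def TNS : Prop := ForA fun A _ _ => ForA fun A' _ _ => ∀ (ρ : A →ₐ[ℂ] A') (W : Submodule ℂ A)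
  (σ : A) (ε : A' →ₐ[ℂ] ℂ), FiniteDimensional ℂ W → σ ∈ W → ρ σ = 0 →
  (∀ f ∈ W, ρ f = 0 → ∃ c : ℂ, f = c • σ) → (∀ f ∈ W * W, ρ f = 0 → ∃ t ∈ W, f = t * σ) →
  finrank ℂ (Tn W (ε.comp ρ)) ≤ finrank ℂ (Tn (W.map ρ.toLinearMap) ε) + 1

/-- **GNS**: generation in degree one -/
def GNS : Prop := ForA fun A _ _ => ForA fun A' _ _ => ∀ (ρ : A →ₐ[ℂ] A') (R : ℕ → Submodule ℂ A)
  (σ : A), σ ∈ R 1 → (∀ m, R 1 ^ (m + 1) ≤ R (m + 1)) →
  (∀ m, ∀ f ∈ R (m + 2), ρ f ∈ (R 1).map ρ.toLinearMap ^ (m + 2)) →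
  (∀ m, ∀ f ∈ R (m + 2), ρ f = 0 → ∃ t ∈ R (m + 1), f = t * σ) → ∀ m, R (m + 1) ≤ R 1 ^ (m + 1)

/-- the differentials at `φ` of the quadrics `B k` -/
def Dq (B : Fin 5 → Matrix (Fin 10) (Fin 10) ℂ) (φ : Fin 10 → ℂ) : Matrix (Fin 5) (Fin 10) ℂ :=
  Matrix.of fun k => φ ᵥ* B k

/-- **QUAD**: five quadrics -/
def QUAD : Prop := ForA fun A _ _ => ∀ (s : Fin 10 → A) (W : Submodule ℂ A),
  LinearIndependent ℂ s → W = Submodule.span ℂ (range s) → finrank ℂ ↥(W * W) = 50 →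
  ∃ B : Fin 5 → Matrix (Fin 10) (Fin 10) ℂ, (∀ k, (B k)ᵀ = B k) ∧
    (∀ k, ∑ i, ∑ j, B k i j • (s i * s j) = 0) ∧ ∀ ε : A →ₐ[ℂ] ℂ,
      finrank ℂ (LinearMap.ker (Dq B fun j => ε (s j)).mulVecLin) ≤ finrank ℂ (Tn W ε)

/-- square matrices of size five -/
abbrev M5 : Type := Matrix (Fin 5) (Fin 5) ℂ

/-- the exterior product of two vectors -/
def wd (u v : Fin 5 → ℂ) : M5 := Matrix.of fun a b => u a * v b - u b * v a

/-- points of the cone over the Grassmannian -/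
def Dec (M : M5) : Prop := M ≠ 0 ∧ ∃ u v, M = wd u v

/-- two basis vectors -/
def Eab (a b : Fin 5) : Matrix (Fin 5) (Fin 2) ℂ := Matrix.of fun i k => if i = ![a, b] k then 1 else 0

/-- a determinant of size ten -/
def pn (P : Matrix (Fin 10) (Fin 7) ℂ) (ν : Matrix (Fin 10) (Fin 3) ℂ) : ℂ :=
  detC (finSumFinEquiv (m := 7) (n := 3)) P ν

/-- a minor of size three -/
def jn (C : Matrix (Fin 5) (Fin 3) ℂ) (a b : Fin 5) : ℂ :=
  detC (finSumFinEquiv (m := 3) (n := 2)) C (Eab a b)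

/-- **PLA**: the coordinates of the image of `D` -/
def PLA : Prop := ∀ (D : Matrix (Fin 5) (Fin 10) ℂ) (P : Matrix (Fin 10) (Fin 7) ℂ), D * P = 0 →
  (∀ y, P *ᵥ y = 0 → y = 0) → finrank ℂ (LinearMap.ker D.mulVecLin) ≤ 7 →
  (∃ ν, pn P ν ≠ 0) ∧ ∃ M, Dec M ∧ ∀ ν a b, jn (D * ν) a b = pn P ν * M a b

/-- the tangent space of the cone over the Grassmannian -/
def Zm (M : M5) : Submodule ℂ M5 where
  carrier := {w | wᵀ = -w ∧ ∀ a b c d, w a b * M c d + M a b * w c d - w a c * M b d - M a c * w b d +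
    w a d * M b c + M a d * w b c = 0}
  add_mem' h h' := ⟨by rw [Matrix.transpose_add, h.1, h'.1, neg_add], fun a b c d => by
    simp only [Matrix.add_apply]; linear_combination h.2 a b c d + h'.2 a b c d⟩
  zero_mem' := ⟨by simp, fun a b c d => by simp⟩
  smul_mem' r _ h := ⟨by rw [Matrix.transpose_smul, h.1, smul_neg], fun a b c d => by
    simp only [Matrix.smul_apply, smul_eq_mul]; linear_combination r * h.2 a b c d⟩

/-- **GRA**: the tangent spaces are spanned by the action of `gl₅` -/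
def GRA : Prop := (∀ M, Dec M → finrank ℂ (Zm M) ≤ 7 ∧ ∀ w, w ∈ Zm M ↔ ∃ g : M5, w = g * M + M * gᵀ) ∧
  ∀ (n : ℕ) (F : Cm n → M5) (z v : Cm n), (∀ a b, DifferentiableAt ℂ (fun y => F y a b) z) →
    (∀ᶠ y in 𝓝 z, Dec (F y)) → (Matrix.of fun a b => fderiv ℂ (fun y => F y a b) z v) ∈ Zm (F z)

/-- **IMB**: an open piece of the cone spans -/
def IMB : Prop := ∀ (N : (Fin 10 → ℂ) →ₗ[ℂ] M5) (f : Cm 6 → Fin 10 → ℂ) (z : Cm 6),
  AnalyticAt ℂ f z → (∀ᶠ y in 𝓝 z, Dec (N (f y))) →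
  (∀ (v : Cm 6) (c : ℂ), N (fderiv ℂ f z v) = c • N (f z) → v = 0) → Function.Injective N

/-! ### geometry -/

/-- restriction, as a homomorphism of algebras -/
def rA {X Z : Type} (i : Z → X) (L : Bd X) : (L.ι → X → ℂ) →ₐ[ℂ] ((pull i L).ι → Z → ℂ) where
  toFun s a z := s a (i z)
  map_one' := rfl
  map_mul' _ _ := rfl
  map_zero' := rfl
  map_add' _ _ := rfl
  commutes' _ := rfl

/-- evaluation -/
def evA {X : Type} (L : Bd X) (a : L.ι) (x : X) : (L.ι → X → ℂ) →ₐ[ℂ] ℂ where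
  toFun s := s a x
  map_one' := rfl
  map_mul' _ _ := rfl
  map_zero' := rfl
  map_add' _ _ := rfl
  commutes' _ := rfl

section
variable (n : ℕ) {X : Type} [TopologicalSpace X] [ChartedSpace (Cm n) X]

/-- the sections of the powers of `L` -/
def Rm (L : Bd X) (m : ℕ) : Submodule ℂ (L.ι → X → ℂ) := Γ n (L.pow m)

variable {n} in
/-- the values and the first derivatives -/
def Pm {N : ℕ} {L : Bd X} (s : Fin N → L.ι → X → ℂ) (a : L.ι) (e : Chart n X) (x : X) :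
    Matrix (Fin N) (Fin (n + 1)) ℂ :=
  Matrix.of fun j => Fin.cons (s j a x) fun k => dd (s j a) e x (Pi.single k 1)

end

/-- del Pezzo manifolds of degree five -/
structure DP (T : CT) {n : ℕ} (V : Mf n) (L : Bd V.X) : Prop where
  conn : PreconnectedSpace V.X
  lb : IsLB n L
  bpf : Bpf n L
  kc : T.Kc V (T.c1 V L)
  can : T.c1 V (Bd.can n V.X) = (1 - n : ℝ) • T.c1 V L
  deg : T.int V (T.c1 V L ^ n) = 5

/-- **POW**: products of sections; holomorphic functions are constant -/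
def POW : Prop := ∀ {n : ℕ} (V : Mf n) (L : Bd V.X), IsLB n L → Rm n L 1 = Γ n L ∧
  (∀ m, Γ n L ^ (m + 1) ≤ Rm n L (m + 1)) ∧ (PreconnectedSpace V.X →
    (∀ t ∈ Rm n L 0, ∃ c : ℂ, ∀ a, ∀ x ∈ L.U a, t a x = c) ∧ (Nonempty V.X → h0 n (L.pow 0) = 1))

/-- **HR1**: the theorem of Riemann and Roch on curves -/
def HR1 : Prop := ∀ T : CT, T.OK → ∀ (V : Mf 1) (M : Bd V.X), IsLB 1 M → Ap T V M →
  (h0 1 M : ℝ) = T.int V (T.c1 V M) - T.int V (T.c1 V (Bd.can 1 V.X)) / 2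

/-- **TRIV**: line bundles on Fano manifolds are determined by their classes -/
def TRIV : Prop := ∀ T : CT, T.OK → ∀ {n : ℕ} (V : Mf n) (M M' : Bd V.X), PreconnectedSpace V.X →
  T.Kc V (-T.c1 V (Bd.can n V.X)) → IsLB n M → IsLB n M' → T.c1 V M = T.c1 V M' → LIso n M M'

/-- **CUTD**: hyperplane sections -/
def CUTD : Prop := ∀ T : CT, T.OK → ∀ {n : ℕ} {V : Mf (n + 1)} {Z : Mf n} {L : Bd V.X}
  {σ : L.ι → V.X → ℂ} {i : Z.X → V.X}, DP T V L → Cut L σ i → σ ∈ Γ (n + 1) L →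
  rA i L σ = 0 ∧ (∀ f ∈ Γ (n + 1) L, rA i L f = 0 → ∃ c : ℂ, f = c • σ) ∧ σ ≠ 0 ∧
  (∀ m, ∀ f ∈ Rm (n + 1) L (m + 2), rA i L f = 0 → ∃ t ∈ Rm (n + 1) L (m + 1), f = t * σ) ∧
  h0 (n + 1) (L.pow 2) = h0 (n + 1) L + h0 n ((pull i L).pow 2) ∧
  (1 ≤ n → DP T Z (pull i L) ∧ (Γ (n + 1) L).map (rA i L).toLinearMap = Γ n (pull i L) ∧
    h0 (n + 1) L = 1 + h0 n (pull i L))

/-- **BASE**: elliptic curves of degree five -/
def BASE : Prop := ∀ T : CT, T.OK → ∀ {V : Mf 1} {Z : Mf 0} {L : Bd V.X} {σ : L.ι → V.X → ℂ}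
  {i : Z.X → V.X}, DP T V L → Cut L σ i → σ ∈ Γ 1 L → h0 1 L = 5 ∧ h0 0 ((pull i L).pow 2) = 5 ∧
  ∃ d : Fin 5 → (pull i L).ι → Z.X → ℂ, Five ((Γ 1 L).map (rA i L).toLinearMap) d ∧
    (∀ m, Rm 0 (pull i L) (m + 2) ≤ Submodule.span ℂ (range fun j => d j ^ (m + 2))) ∧
    ∀ a z, i z ∈ L.U a → ∃ j, d j a z ≠ 0

/-- **LADG**: dimensions, generation in degree one -/
def LADG : Prop := ∀ T : CT, T.OK → ∀ {n : ℕ} {V : Mf (n + 1)} {L : Bd V.X}, DP T V L →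
  h0 (n + 1) L = n + 5 ∧ 2 * h0 (n + 1) (L.pow 2) = n ^ 2 + 11 * n + 20 ∧
    ∀ m, Rm (n + 1) L (m + 1) ≤ Γ (n + 1) L ^ (m + 1)

/-- **VAL**: `L` is very ample -/
def VAL : Prop := ∀ {n : ℕ} (V : Mf n) (L : Bd V.X) (ι : Type) (s : ι → L.ι → V.X → ℂ), IsLB n L →
  Pos n L → Bpf n L → (∀ m, Rm n L (m + 1) ≤ Γ n L ^ (m + 1)) →
  Γ n L = Submodule.span ℂ (range s) → Va n L s

/-- **LADT**: the quadrics cut out the tangent spaces -/
def LADT : Prop := ∀ T : CT, T.OK → ∀ {n : ℕ} {V : Mf (n + 1)} {L : Bd V.X} {ι : Type} [Fintype ι]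
  {s : ι → L.ι → V.X → ℂ}, DP T V L → Va (n + 1) L s → ∀ a x, x ∈ L.U a →
  finrank ℂ (Tn (Γ (n + 1) L) (evA L a x)) ≤ n + 2

/-- **WR**: determinants of values and derivatives -/
def WR : Prop := ∀ {n N c : ℕ} (V : Mf n) (L : Bd V.X) (s : Fin N → L.ι → V.X → ℂ)
  (κ : Fin (n + 1) ⊕ Fin c ≃ Fin N) (ν : Matrix (Fin N) (Fin c) ℂ), IsLB n L →
  (∀ j, IsSec n L (s j)) →
  IsSec n ((Bd.can n V.X).mul (L.pow (n + 1))) fun b x => detC κ (Pm s b.2 b.1 x) ν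

/-- `N` maps the cone over `V` to the cone over the Grassmannian -/
def ToG {X : Type} (L : Bd X) (s : Fin 10 → L.ι → X → ℂ) (N : (Fin 10 → ℂ) →ₗ[ℂ] M5) : Prop :=
  ∀ a, ∀ x ∈ L.U a, Dec (N fun j => s j a x)

/-- **PLK**: the map to the Grassmannian -/
def PLK : Prop := ∀ (V : Mf 6) (L : Bd V.X) (s : Fin 10 → L.ι → V.X → ℂ)
  (B : Fin 5 → Matrix (Fin 10) (Fin 10) ℂ), Va 6 L s → Γ 6 L = Submodule.span ℂ (range s) →
  LIso 6 (L.pow 2) ((Bd.can 6 V.X).mul (L.pow 7)) → (∀ k, (B k)ᵀ = B k) →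
  (∀ k, ∑ i, ∑ j, B k i j • (s i * s j) = 0) →
  (∀ a, ∀ x ∈ L.U a, finrank ℂ (LinearMap.ker (Dq B fun j => s j a x).mulVecLin) ≤ 7) →
  ∃ N, ToG L s N

/-- **IMA**: a base point free system of nonzero degree is an immersion somewhere -/
def IMA : Prop := ∀ T : CT, T.OK → ∀ {n : ℕ} (V : Mf n) (L : Bd V.X) (ι : Type) [Fintype ι]
  (s : ι → L.ι → V.X → ℂ), IsLB n L → (∀ j, IsSec n L (s j)) → Bs L s = ∅ →
  T.int V (T.c1 V L ^ n) ≠ 0 → ∃ (a : L.ι) (x : V.X) (e : Chart n V.X), x ∈ L.U a ∧ At e x ∧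
    ∀ (v : Cm n) (c : ℂ), (∀ j, dd (s j a) e x v = c * s j a x) → v = 0

/-- **FLD**: linear maps which are tangent to the cone define vector fields -/
def FLD : Prop := ∀ {n : ℕ} (V : Mf n) (L : Bd V.X) (ι : Type) [Fintype ι] (s : ι → L.ι → V.X → ℂ)
  (A : (ι → ℂ) →ₗ[ℂ] (ι → ℂ)), Va n L s →
  (∀ a x (e : Chart n V.X), x ∈ L.U a → At e x → ∃ (c : ℂ) (v : Cm n),
    (A fun j => s j a x) = fun j => c * s j a x + dd (s j a) e x v) →
  ∃ ξ, Gp.IsField n ξ ∧ ∀ a x (e : Chart n V.X), x ∈ L.U a → At e x → ∃ c : ℂ,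
    (A fun j => s j a x) = fun j => c * s j a x + dd (s j a) e x (ξ e (e x))

/-- **GEN**: vector fields from the Grassmannian -/
def GEN : Prop := ∀ (V : Mf 6) (L : Bd V.X) (s : Fin 10 → L.ι → V.X → ℂ) N, Va 6 L s → ToG L s N →
  Function.Injective N → Gp.Gen 6 V.X

/-- **the output of the block** -/
def DP5 : Prop := ∀ T : CT, T.OK → ∀ (V : Mf 6) (L : Bd V.X), DP T V L → Gp.Gen 6 V.X

end Vale.Agent.P280Z.En
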