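import Vale.Agent.P280Z.En.Defs
import Vale.Agent.P280Z.Ld.Conn

/-!
# P280Z, block EN: elliptic curves of degree five (row BASE)
-/

open scoped Manifold ContDiff Topology
open Set Filter
open Vale.Agent.P272.K Vale.Agent.P285.H281.FD Vale.Agent.P281Z Vale.Agent.P280Z.Ld
open Vale.Agent.P280Z.Ld.ConnX (Op sO ne0 nz top0)
open Vale.Agent.P277.HD (pull)
open Module (finrank)

noncomputable section

namespace Vale.Agent.P280Z.En

namespace BaseH

variable {m n : ℕ} {V : Mf m} {A : Bd V.X} {σ : A.ι → V.X → ℂ} {G G' : Set V.X}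

theorem cutOp {Z Y : Mf n} {i : Z.X → V.X} (h : Cut A σ i) (hz : {x | ¬ NZ A σ x} = G ∪ G')
    (hd : Disjoint G G') {j : Y.X → V.X} (hj : Emb n m j G) (hG : IsClosed G') :
    Cut (Op A σ G G') (sO A σ G G') j := by
  have hsub : G ⊆ {x | ¬ NZ A σ x} := hz ▸ subset_union_left
  refine ⟨h.dim, ConnX.lb h.lb h.sec hz hj.closed hG hd, ConnX.sec h.sec hz, ⟨hj.hol, hj.inj, hj.imm,
    hj.rng.trans (Subset.antisymm
      (fun x hx k => hsub hx fun a ha => k (some a) ⟨ha, disjoint_left.1 hd hx⟩)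
      fun x hx => not_not.1 fun k => hx (nz hz k))⟩, ?_⟩
  rintro z (_ | a) ha e he
  · exact (ha (hj.mem z)).elim
  · obtain ⟨z', hz'⟩ := h.emb.ex (hsub (hj.mem z))
    have := h.tr z' a (by rw [hz']; exact ha.1) e (by rw [hz']; exact he)
    rwa [hz'] at this

/-- the same bundle on a finer cover -/
def Rf {X : Type} (A : Bd X) (G G' : Set X) : Bd X where
  ι := A.ι × Bool
  U a := A.U a.1 ∩ (cond a.2 G' G)ᶜ
  g a b := A.g a.1 b.1

theorem ml (hA : IsLB m A) (hσ : IsSec m A σ) (hz : {x | ¬ NZ A σ x} = G ∪ G') (hG : IsClosed G)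
    (hG' : IsClosed G') (hd : Disjoint G G') : Ml m (Rf A G G') (Op A σ G G') (Op A σ G' G)
      (fun a => cond a.2 (some a.1) none) fun a => cond a.2 none (some a.1) where
  lM := ⟨fun a => (hA.isOpen _).inter (Bool.rec hG hG' a.2 : IsClosed (cond a.2 G' G)).isOpen_compl,
    fun x => (hA.cover x).elim fun a ha => (em (x ∈ G)).elim
      (fun k => ⟨(a, true), ha, disjoint_left.1 hd k⟩) fun k => ⟨(a, false), ha, k⟩,
    fun _ _ e x he ha hb => hA.holo _ _ e x he ha.1 hb.1,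
    fun _ _ x ha hb => hA.ne_zero _ _ x ha.1 hb.1,
    fun _ _ _ x ha hb hc => hA.cocycle _ _ _ x ha.1 hb.1 hc.1⟩
  lN := ConnX.lb hA hσ hz hG hG' hd
  lA := ConnX.lb hA hσ (hz.trans (union_comm _ _)) hG' hG hd.symm
  sN
    | (_, true) => fun _ k => k
    | (_, false) => fun _ k => k.2
  sA
    | (_, true) => fun _ k => k.2
    | (_, false) => fun _ k => k
  g
    | (_, true), (_, true), _, _, _ => (mul_one _).symm
    | (_, false), (_, false), _, _, _ => (one_mul _).symm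
    | (a, true), (b, false), x, ha, hb => by
      show A.g a b x = σ a x * (σ b x)⁻¹
      rw [hσ.change a b x ha.1 hb.1, mul_inv_cancel_right₀ (ne0 hz hb.1 hb.2 ha.2)]
    | (a, false), (b, true), x, ha, hb => by
      show A.g a b x = (σ b x)⁻¹ * σ a x
      rw [hσ.change a b x ha.1 hb.1, mul_comm, mul_inv_cancel_right₀ (ne0 hz hb.1 ha.2 hb.2)]

/-- a section which vanishes at all points but one vanishes at this point -/
theorem van (hL : LD) (h1 : HR1) {T : CT} (hT : T.OK) {V : Mf 1} {Z : Mf 0} {L : Bd V.X}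
    {σ s : L.ι → V.X → ℂ} {i : Z.X → V.X} (hD : DP T V L) (h : Cut L σ i) (hs : s ∈ Γ 1 L)
    {z : Z.X} (h0 : ∀ a z', z' ≠ z → s a (i z') = 0) {a : L.ι} (ha : i z ∈ L.U a) :
    s a (i z) = 0 := by
  have := (hL.pt Z _ (h.emb.hol.lb h.lb)).1
  obtain ⟨Y, j, hj⟩ := clopen_emb Z (isClopen_discrete {z})
  obtain ⟨Y', j', hj'⟩ := clopen_emb Z (isClopen_discrete {z}ᶜ)
  have hz : {x | ¬ NZ L σ x} = i '' {z} ∪ i '' {z}ᶜ := by
    rw [← image_union, union_compl_self, image_univ, h.emb.rng]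
  have hd : Disjoint (i '' {z}) (i '' {z}ᶜ) := (disjoint_image_iff h.emb.inj).2 disjoint_compl_right
  have e1 := h.emb.comp hj
  have e2 := h.emb.comp hj'
  have c1 := cutOp h hz hd e1 e2.closed
  have c2 := cutOp h (hz.trans (union_comm _ _)) hd.symm e2 e1.closed
  have k1 : T.int V (T.c1 V (Op L σ (i '' {z}) (i '' {z}ᶜ))) = 1 := by
    have := hT.pl c1 1
    rw [mul_one, map_one, hT.rg.int_pt, ← Nat.card_range_of_injective hj.inj, hj.rng] at this
    simpa using this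
  have k2 : T.c1 V (Bd.can 1 V.X) = 0 := by simpa using hD.can
  have k3 : T.c1 V (Op L σ (i '' {z}) (i '' {z}ᶜ)) = (1 / 5 : ℝ) • T.c1 V L := by
    refine sub_eq_zero.1 (top0 hT ((hT.po.kah V).2 ⟨_, hD.kc⟩) hD.conn ?_ ?_)
    · rw [CT.Dg, map_sub, map_smul, hT.c1.deg, hT.c1.deg]
    · rw [map_sub, map_smul, k1, ← pow_one (T.c1 V L), hD.deg]
      norm_num
  have k4 := h1 T hT V _ c1.lb (by
    rw [Ap, k2, sub_zero, k3]
    exact hT.po.smul _ (by norm_num) hD.kc)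
  rw [k1, k2, map_zero, zero_div, sub_zero, Nat.cast_eq_one] at k4
  have hM := ml h.lb h.sec hz e1.closed e2.closed hd
  obtain ⟨t, ht, k5⟩ := (hL.div c2).2 _ _ _ _ hM (nm (Rf L _ _) fun a => s a.1)
    (nm_mem hM.lM ⟨fun _ e x he k => hs.1.holo _ e x he k.1, fun _ _ x k k' =>
      hs.1.change _ _ x k.1 k'.1⟩) (funext₂ fun b y =>
      indicator_apply_eq_zero.2 fun _ => h0 _ _ (hj'.mem y))
  have m1 : i z ∈ (Rf L (i '' {z}) (i '' {z}ᶜ)).U (a, true) :=
    ⟨ha, disjoint_left.1 hd ⟨z, rfl, rfl⟩⟩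
  have k6 : t (some a) (i z) * 1 = s a (i z) :=
    (tm_of m1).symm.trans ((congrFun₂ k5 _ _).trans (nm_of m1))
  obtain ⟨x, hx⟩ := (hL.div c1).1.nonempty_iff.2 ⟨i z⟩
  obtain ⟨b, hb⟩ := c1.lb.cover x
  obtain ⟨c, hc⟩ := (finrank_eq_one_iff_of_nonzero' (K := ℂ) ⟨_, nm_mem c1.lb c1.sec⟩ fun k =>
    hx b hb ((nm_of hb).symm.trans (congrFun₂ (congrArg Subtype.val k) b x))).1 k4 ⟨t, ht⟩
  have k7 : nm (Op L σ (i '' {z}) (i '' {z}ᶜ)) (sO L σ _ _) (some a) (i z) = σ a (i z) := nm_of m1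
  exact k6.symm.trans ((mul_one _).trans ((congrFun₂ (congrArg Subtype.val hc) (some a)
    (i z)).symm.trans (mul_eq_zero_of_right c (k7.trans (h.zero z ha)))))

/-- decomposition of sections over a finite set -/
theorem dec {Z : Mf 0} [Fintype Z.X] {Q : Bd Z.X} (hQ : IsLB 0 Q) {D : Z.X → Q.ι → Z.X → ℂ}
    (h1 : ∀ z, D z ∈ Γ 0 Q) (h2 : ∀ z a z', z ≠ z' → D z a z' = 0)
    (h3 : ∀ z a, z ∈ Q.U a → D z a z ≠ 0) {f : Q.ι → Z.X → ℂ} (hf : f ∈ Γ 0 Q) :
    ∃ c : Z.X → ℂ, f = ∑ z, c z • D z := by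
  choose a ha using hQ.cover
  refine ⟨fun z => f (a z) z / D z (a z) z, Γ_ext' hf
    (Submodule.sum_mem _ fun z _ => Submodule.smul_mem _ _ (h1 z)) fun x => ⟨a x, ha x, ?_⟩⟩
  rw [sum_apply', Finset.sum_eq_single x (fun z _ k => by rw [h2 z _ x k, mul_zero]) (by simp),
    div_mul_cancel₀ _ (h3 x _ (ha x))]

theorem sep {M : Type} [AddCommGroup M] [Module ℂ M] {W : Submodule ℂ M} {x : M} (h : x ∉ W) :
    ∃ φ : Module.Dual ℂ M, φ x ≠ 0 ∧ W ≤ LinearMap.ker φ :=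
  (W.exists_dual_map_eq_bot_of_notMem h inferInstance).imp fun _ k =>
    ⟨k.1, LinearMap.le_ker_iff_map.2 k.2⟩

end BaseH

open BaseH in
theorem base_of (hL : LD) (h1 : HR1) (hC : CUTD) : BASE := by
  classical
  intro T hT V Z L σ i hD h hσ
  have hP := h.emb.hol.lb h.lb
  obtain ⟨hf, p1, p2⟩ := hL.pt Z _ hP
  have := Fintype.ofFinite Z.X
  have k2 : T.c1 V (Bd.can 1 V.X) = 0 := by simpa using hD.can
  have k0 : T.int V (T.c1 V L) = 5 := by simpa using hD.deg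
  have k1 : h0 1 L = 5 := by
    have := h1 T hT V L hD.lb (by rw [Ap, k2, sub_zero]; exact hD.kc)
    rw [k0, k2, map_zero, zero_div, sub_zero] at this
    exact_mod_cast this
  have k3 : Nat.card Z.X = 5 := by
    have := hT.pl h 1
    rw [mul_one, map_one, hT.rg.int_pt, k0] at this
    exact_mod_cast this.symm
  refine ⟨k1, (hL.pt Z _ (lb_pow hP 2)).2.1.trans k3, ?_⟩
  choose a ha using hP.cover
  choose δ hδ using fun z => (p2 a ha).2 (Pi.single z 1)
  have hδ' : ∀ z z', (δ z).1 (a z') z' = (Pi.single z 1 : Z.X → ℂ) z' := fun z => congrFun (hδ z)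
  have d2 : ∀ z b z', z ≠ z' → (δ z).1 b z' = 0 := fun z b z' k => (em (z' ∈ (pull i L).U b)).elim
    (fun l => by rw [(δ z).2.1.change b _ z' l (ha z'), hδ',
      Pi.single_eq_of_ne k.symm, mul_zero]) ((δ z).2.2 b z')
  have d3 : ∀ z b, z ∈ (pull i L).U b → (δ z).1 b z ≠ 0 := fun z b l => by
    rw [(δ z).2.1.change b _ z l (ha z), hδ', Pi.single_eq_same, mul_one]
    exact hP.ne_zero _ _ z l (ha z)
  set W := (Γ 1 L).map (rA i L).toLinearMap with hW
  have w1 : ∀ z, (δ z).1 ∉ W := by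
    rintro z ⟨s, hs, k⟩
    exact d3 z _ (ha z) ((congrFun₂ k _ _).symm.trans (van hL h1 hT hD h hs (fun b z' l =>
      (congrFun₂ k b z').trans (d2 z b z' l.symm)) (ha z)))
  have w2 : W ≤ Γ 0 (pull i L) := by
    rintro _ ⟨s, hs, rfl⟩
    exact res_mem h.emb.hol hs
  have f1 : FiniteDimensional ℂ (Γ 1 L) := Module.finite_of_finrank_pos (k1.ge.trans_lt' (by omega))
  have f2 : FiniteDimensional ℂ (Γ 0 (pull i L)) :=
    Module.finite_of_finrank_pos ((p1.trans k3).ge.trans_lt' (by omega))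
  have w3 : 4 ≤ finrank ℂ W := by
    obtain ⟨c1, c2, -⟩ := hC T hT hD h hσ
    have l1 := ((rA i L).toLinearMap.domRestrict (Γ 1 L)).finrank_range_add_finrank_ker
    have l2 := finrank_le_one (R := ℂ) (M := ((rA i L).toLinearMap.domRestrict (Γ 1 L)).ker)
      ⟨⟨σ, hσ⟩, c1⟩ fun w => (c2 _ w.1.2 w.2).imp fun c k => Subtype.ext (Subtype.ext k.symm)
    rw [LinearMap.range_domRestrict, show finrank ℂ (Γ 1 L) = 5 from k1, ← hW] at l1
    omega
  let e := (Finite.equivFinOfCardEq k3).symm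
  obtain ⟨φ, φ1, φ2⟩ := sep (w1 (e 0))
  have w4 : W = Γ 0 (pull i L) ⊓ LinearMap.ker φ := by
    refine Submodule.eq_of_le_of_finrank_le (le_inf w2 φ2) ?_
    have l1 := Submodule.finrank_lt_finrank_of_lt (s := Γ 0 (pull i L) ⊓ LinearMap.ker φ)
      (lt_of_le_of_ne inf_le_left fun k => φ1 (k.ge (δ (e 0)).2).2)
    rw [show finrank ℂ (Γ 0 (pull i L)) = 5 from p1.trans k3] at l1
    omega
  have w5 : ∀ z, φ (δ z).1 ≠ 0 := fun z k => w1 z (w4.ge ⟨(δ z).2, k⟩)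
  obtain ⟨d, q1, q2, q3, q4⟩ : ∃ d : Z.X → (pull i L).ι → Z.X → ℂ, (∀ z, d z ∈ Γ 0 (pull i L)) ∧
      (∀ z b z', z ≠ z' → d z b z' = 0) ∧ (∀ z b, z ∈ (pull i L).U b → d z b z ≠ 0) ∧
      ∀ z, φ (d z) = 1 :=
    ⟨fun z => (φ (δ z).1)⁻¹ • (δ z).1, fun z => Submodule.smul_mem _ _ (δ z).2,
      fun z b z' k => mul_eq_zero_of_right _ (d2 z b z' k),
      fun z b k => mul_ne_zero (inv_ne_zero (w5 z)) (d3 z b k),
      fun z => by rw [map_smul, smul_eq_mul, inv_mul_cancel₀ (w5 z)]⟩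
  refine ⟨fun j => d (e j), ⟨fun j k l => funext₂ fun b z => ?_, le_antisymm (fun w hw => ?_)
    (Submodule.span_le.2 ?_)⟩, fun m f hf => ?_,
    fun b z k => ⟨e.symm z, (congrArg (d · b z) (e.apply_symm_apply z)).trans_ne (q3 z b k)⟩⟩
  · by_cases c : e j = z
    · exact mul_eq_zero_of_right _ (q2 _ b z fun c' => l (e.injective (c.trans c'.symm)))
    · exact mul_eq_zero_of_left (q2 _ b z c) _
  · obtain ⟨c, hc⟩ := dec hP q1 q2 q3 (w2 hw)
    have l1 : φ w = 0 := (w4.le hw).2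
    rw [hc, map_sum] at l1
    simp only [map_smul, q4, smul_eq_mul, mul_one] at l1
    rw [show w = ∑ z, c z • (d z - d (e 0)) by
      simp only [smul_sub, Finset.sum_sub_distrib, ← Finset.sum_smul, l1, zero_smul, sub_zero, ← hc]]
    exact Submodule.sum_mem _ fun z _ => Submodule.smul_mem _ _ (Submodule.subset_span
      ⟨(e.symm z, 0), by simp only [e.apply_symm_apply]⟩)
  · rintro _ ⟨p, rfl⟩
    exact w4.ge ⟨sub_mem (q1 _) (q1 _), (map_sub φ _ _).trans (by rw [q4, q4, sub_self])⟩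
  · obtain ⟨c, hc⟩ := dec (lb_pow hP (m + 2)) (D := fun z => d z ^ (m + 2)) (fun z =>
      ⟨⟨fun b e' x he hb => ((q1 z).1.holo b e' x he hb).pow _, fun b b' x hb hb' =>
        (congrArg (· ^ (m + 2)) ((q1 z).1.change b b' x hb hb')).trans (mul_pow _ _ _)⟩,
        fun b x k => pow_eq_zero_iff (by omega) |>.2 ((q1 z).2 b x k)⟩)
      (fun z b z' k => pow_eq_zero_iff (by omega) |>.2 (q2 z b z' k))
      (fun z b k => pow_ne_zero _ (q3 z b k)) hf
    rw [hc]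
    exact Submodule.sum_mem _ fun z _ => Submodule.smul_mem _ _ (Submodule.subset_span
      ⟨e.symm z, by simp only [e.apply_symm_apply]⟩)

end Vale.Agent.P280Z.En
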