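import Vale.Agent.P280Z.En.Defs

/-!
# P280Z, block EN: hyperplane sections of del Pezzo manifolds
-/

open scoped Manifold ContDiff Topology Matrix
open Set Filter
open Vale.Agent.P272.K Vale.Agent.P285.H281.FD Vale.Agent.P281Z Vale.Agent.P280Z.Ld
open Vale.Agent.P277.HD (pull)

noncomputable section

namespace Vale.Agent.P280Z.En

theorem DP.ne {T : CT} (hT : T.OK) {n : ℕ} {V : Mf n} {L : Bd V.X} (h : DP T V L) :
    Nonempty V.X := by
  by_contra k
  have k1 := hT.rg.van (V := V) (W := V) (f := fun x => x) holM_id n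
    (fun x => absurd ⟨x⟩ k) (T.c1 V L ^ n)
  have k2 := h.deg
  rw [hT.rg.pull_id] at k1
  rw [← hT.rg.int_pr, k1, map_zero] at k2
  norm_num at k2

namespace CutdA

variable {T : CT} {n m : ℕ} {V : Mf m} {Z : Mf n} {L : Bd V.X} {σ : L.ι → V.X → ℂ} {i : Z.X → V.X}

theorem ml0 (h : IsLB m L) : Ml m L (L.pow 0) L id id :=
  ⟨h, lb_pow h _, h, fun _ _ k => k, fun _ _ k => k, fun _ _ _ _ _ => (one_mul _).symm⟩

theorem ml2 (h : IsLB m L) : Ml m (L.pow 2) L L id id :=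
  ⟨lb_pow h _, h, h, fun _ _ k => k, fun _ _ k => k, fun _ _ _ _ _ => pow_two _⟩

theorem kc_smul (hT : T.OK) (h : DP T V L) {c : ℝ} (hc : 0 < c) {w : T.H V}
    (e : w = c • T.c1 V L) : T.Kc V w := e ▸ hT.po.smul c hc h.kc

theorem kc_pull (hT : T.OK) (hc : Cut L σ i) {w : T.H V} (h : T.Kc V w) :
    T.Kc Z (T.pull hc.emb.hol w) :=
  hT.po.mono (hT.po.pull hc.emb.hol h) fun z v hv =>
    (injective_iff_map_eq_zero (Df n m i z)).1
      (hc.emb.imm z _ _ (P277Z.at_chart z) (P277Z.at_chart (i z))) v hv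

end CutdA

open CutdA in
theorem cutd_of (hL : LD) (hP : POW) : CUTD := by
  intro T hT n V Z L σ i h hc hσ
  obtain ⟨d1, d2⟩ := hL.div hc
  obtain ⟨-, -, p1⟩ := hP V L h.lb
  obtain ⟨p1, p2⟩ := p1 h.conn
  have hne := h.ne hT
  refine ⟨funext₂ fun a z => ?_, fun f hf h0 => ?_, fun h0 => ?_, fun k f hf h0 => ?_, ?_,
    fun hn => ?_⟩
  · by_cases k : i z ∈ L.U a
    exacts [hc.zero z k, hσ.2 a _ k]
  · obtain ⟨t, ht, e⟩ := d2 L (L.pow 0) id id (ml0 h.lb) f hf h0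
    obtain ⟨c, k⟩ := p1 t ht
    refine ⟨c, Γ_ext hf (Submodule.smul_mem _ c hσ) fun a x hx => ?_⟩
    rw [← e]
    exact (tm_of (N := L.pow 0) hx).trans (congrArg (· * σ a x) (k a x hx))
  · obtain ⟨x, hx⟩ := d1.nonempty
    obtain ⟨a, ha⟩ := h.lb.cover x
    exact hx a ha (by rw [h0]; rfl)
  · obtain ⟨t, ht, e⟩ := d2 (L.pow (k + 2)) (L.pow (k + 1)) id id (ml_succ h.lb _) f hf h0
    refine ⟨t, ht, funext₂ fun a x => ?_⟩
    by_cases hx : x ∈ L.U a
    · rw [← e]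
      exact tm_of (M := L.pow (k + 2)) hx
    · exact (hf.2 a x hx).trans ((congrArg (· * σ a x) (ht.2 a x hx)).trans (zero_mul _)).symm
  · refine hL.step T hT hc (L.pow 2) L id id (ml2 h.lb)
      (kc_smul hT h (c := n + 1) (by positivity) ?_)
    rw [h.can]
    push_cast
    module
  · have hn' : (0 : ℝ) < n := Nat.cast_pos.2 hn
    have e := hT.c1.pull hc.emb.hol L h.lb
    refine ⟨⟨hL.conn T hT hc hn h.kc h.conn, hc.emb.hol.lb h.lb, fun z => ?_, ?_, ?_, ?_⟩,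
      le_antisymm ?_ fun u hu => ?_, ?_⟩
    · obtain ⟨s, h1, h2⟩ := h.bpf (i z)
      exact ⟨_, hc.emb.hol.sec h1, h2⟩
    · rw [e]
      exact kc_pull hT hc h.kc
    · rw [(hL.adj hc).2 T hT.c1, e, h.can, ← map_smul]
      refine congrArg _ ?_
      push_cast
      module
    · rw [e, ← map_pow, ← hT.pl hc, ← pow_succ', h.deg]
    · rintro _ ⟨s, hs, rfl⟩
      exact res_mem hc.emb.hol hs
    · refine hL.ext T hT hc L h.lb (kc_smul hT h hn' ?_) u hu
      rw [h.can]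
      push_cast
      module
    · refine (hL.step T hT hc L (L.pow 0) id id (ml0 h.lb) (kc_smul hT h hn' ?_)).trans
        (congrArg (· + _) (p2 hne))
      rw [h.can, hT.c1.pow V L 0 h.lb]
      push_cast
      module

end Vale.Agent.P280Z.En
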