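import Vale.Agent.P280Z.En.Defs

/-!
# P280Z, block EN: the tangent spaces of the cone over the Grassmannian
-/

open scoped Topology Matrix
open Set Filter
open Vale.Agent.P272.K
open Module (finrank)

noncomputable section

namespace Vale.Agent.P280Z.En

namespace GraH

variable {M w : M5}

theorem skew (h : Dec M) (a b : Fin 5) : M b a = -M a b := by
  obtain ⟨-, u, v, rfl⟩ := h
  simp only [wd, Matrix.of_apply]
  ring

theorem plk (h : Dec M) (a b c d : Fin 5) :
    M a b * M c d - M a c * M b d + M a d * M b c = 0 := by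
  obtain ⟨-, u, v, rfl⟩ := h
  simp only [wd, Matrix.of_apply]
  ring

theorem ex (h : Dec M) : ∃ a b, M a b ≠ 0 := by
  by_contra k
  exact h.1 (Matrix.ext fun a b => not_not.1 fun c => k ⟨a, b, c⟩)

theorem zsk (h : w ∈ Zm M) (a b : Fin 5) : w b a = -w a b := congrFun (congrFun h.1 a) b

theorem card (a b : Fin 5) (h : a ≠ b) : Fintype.card {c // c ≠ a ∧ c ≠ b} = 3 := by
  revert a b
  decide

theorem dim (h : Dec M) : finrank ℂ (Zm M) ≤ 7 := by
  obtain ⟨a, b, hm⟩ := ex h
  have hab : a ≠ b := by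
    rintro rfl
    exact hm (by linear_combination (skew h a a) / 2)
  let φ : Zm M →ₗ[ℂ] ℂ × ({c // c ≠ a ∧ c ≠ b} → ℂ) × ({c // c ≠ a ∧ c ≠ b} → ℂ) :=
    { toFun w := (w.1 a b, fun c => w.1 a c, fun c => w.1 b c)
      map_add' _ _ := rfl
      map_smul' _ _ := rfl }
  have hφ : Function.Injective φ := (injective_iff_map_eq_zero φ).2 fun w hw => by
    have h1 : w.1 a b = 0 := congrArg Prod.fst hw
    have h2 : ∀ c, c ≠ a → c ≠ b → w.1 a c = 0 := fun c k k' =>
      congrFun (congrArg (fun p => p.2.1) hw) ⟨c, k, k'⟩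
    have h3 : ∀ c, c ≠ a → c ≠ b → w.1 b c = 0 := fun c k k' =>
      congrFun (congrArg (fun p => p.2.2) hw) ⟨c, k, k'⟩
    have h4 : ∀ c, w.1 c c = 0 := fun c => by linear_combination (zsk w.2 c c) / 2
    have h5 : ∀ c, w.1 a c = 0 ∧ w.1 b c = 0 := fun c => by
      by_cases k : c = a
      · rw [k]
        exact ⟨h4 a, by rw [zsk w.2 a b, h1, neg_zero]⟩
      by_cases k' : c = b
      · rw [k']
        exact ⟨h1, h4 b⟩
      exact ⟨h2 c k k', h3 c k k'⟩
    refine Subtype.ext (Matrix.ext fun c d => mul_left_cancel₀ hm ?_)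
    have h6 := w.2.2 a b c d
    rw [h1, (h5 c).1, (h5 d).1, (h5 c).2, (h5 d).2] at h6
    show _ = M a b * 0
    linear_combination h6
  refine (LinearMap.finrank_le_finrank_of_injective hφ).trans_eq ?_
  simp only [Module.finrank_prod, Module.finrank_self, Module.finrank_fintype_fun_eq_card,
    card a b hab]

theorem act (g : M5) (u v : Fin 5 → ℂ) :
    g * wd u v + wd u v * gᵀ = wd (g *ᵥ u) v + wd u (g *ᵥ v) := by
  ext a b
  simp only [wd, Matrix.add_apply, Matrix.mul_apply, Matrix.of_apply, Matrix.transpose_apply,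
    Matrix.mulVec, dotProduct, Fin.sum_univ_five]
  ring

theorem mem (h : Dec M) (g : M5) : g * M + M * gᵀ ∈ Zm M := by
  obtain ⟨-, u, v, rfl⟩ := h
  rw [act]
  refine ⟨Matrix.ext fun a b => ?_, fun a b c d => ?_⟩
  · simp only [wd, Matrix.add_apply, Matrix.of_apply, Matrix.transpose_apply, Matrix.neg_apply]
    ring
  · simp only [wd, Matrix.add_apply, Matrix.of_apply]
    ring

theorem exg (h : Dec M) (hw : w ∈ Zm M) : ∃ g : M5, w = g * M + M * gᵀ := by
  obtain ⟨a, b, hm⟩ := ex h
  obtain ⟨r, hr⟩ : ∃ r, r * M a b = 1 := ⟨_, inv_mul_cancel₀ hm⟩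
  refine ⟨Matrix.vecMulVec (fun c => r * (w a c - r * w a b * M a c)) (Pi.single b 1) +
    Matrix.vecMulVec (fun c => -(r * w b c)) (Pi.single a 1), Matrix.ext fun c d => ?_⟩
  simp only [Matrix.add_apply, Matrix.mul_apply, Matrix.transpose_apply, Matrix.vecMulVec_apply,
    add_mul, mul_add, Finset.sum_add_distrib, Pi.single_apply, mul_ite, ite_mul, mul_one, mul_zero,
    zero_mul, Finset.sum_ite_eq', Finset.mem_univ, if_true]
  rw [skew h b c, skew h a c]
  linear_combination r * hw.2 a b c d - r * r * w a b * plk h a b c d -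
    (w c d - r * w a b * M c d) * hr

end GraH

open GraH

/-- **GRA** -/
theorem gra : GRA := by
  refine ⟨fun M h => ⟨dim h, fun w => ⟨exg h, fun ⟨g, k⟩ => k ▸ mem h g⟩⟩,
    fun n F z v hF h => ⟨Matrix.ext fun a b => ?_, fun a b c d => ?_⟩⟩
  · have k := (hF b a).hasFDerivAt.unique ((hF a b).hasFDerivAt.fun_neg.congr_of_eventuallyEq
      (h.mono fun y hy => skew hy a b))
    exact DFunLike.congr_fun k v
  · have k := ((((hF a b).hasFDerivAt.fun_mul (hF c d).hasFDerivAt).fun_sub
      ((hF a c).hasFDerivAt.fun_mul (hF b d).hasFDerivAt)).fun_add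
      ((hF a d).hasFDerivAt.fun_mul (hF b c).hasFDerivAt)).unique
      ((hasFDerivAt_const (0 : ℂ) z).congr_of_eventuallyEq (h.mono fun y hy => plk hy a b c d))
    have k' := DFunLike.congr_fun k v
    simp only [add_apply, sub_apply, smul_apply, smul_eq_mul, zero_apply] at k'
    simp only [Matrix.of_apply]
    linear_combination k'

end Vale.Agent.P280Z.En
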