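import Vale.Agent.P280Z.En.Defs

/-!
# P280Z, block EN, row IMB: an open piece of the cone over the Grassmannian spans
-/

open scoped Topology Matrix
open Set Filter Function
open Vale.Agent.P272.K
open Module (finrank)

noncomputable section

namespace Vale.Agent.P280Z.En

namespace ImbH

/-- vectors of length five -/
abbrev V5 : Type := Fin 5 → ℂ

theorem plk {M : M5} (h : Dec M) (a b c d : Fin 5) :
    M c b * M a d - M d b * M a c = M a b * M c d := by
  obtain ⟨-, u, v, rfl⟩ := h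
  simp only [wd, Matrix.of_apply]
  ring

theorem diag {M : M5} (h : Dec M) (a : Fin 5) : M a a = 0 := by
  obtain ⟨-, u, v, rfl⟩ := h
  simp only [wd, Matrix.of_apply, sub_self]

/-- the exterior product as a bilinear map -/
def wl : V5 →ₗ[ℂ] V5 →ₗ[ℂ] M5 :=
  LinearMap.mk₂ ℂ wd (fun _ _ _ => by ext; simp [wd]; ring) (fun _ _ _ => by ext; simp [wd]; ring)
    (fun _ _ _ => by ext; simp [wd]; ring) (fun _ _ _ => by ext; simp [wd]; ring)

theorem all_of {R : Submodule ℂ M5} {p : V5 × V5} (h : ∀ᶠ q in 𝓝 p, wd q.1 q.2 ∈ R) (u v : V5) :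
    wd u v ∈ R := by
  obtain ⟨A, hA, B, hB, k⟩ := mem_nhds_prod_iff.1 h
  have h1 : ∀ v ∈ B, wd u v ∈ R := fun v hv => (Submodule.eq_top_of_nonempty_interior'
    (R.comap (wl.flip v)) ⟨p.1, mem_interior_iff_mem_nhds.2
      (mem_of_superset hA fun w hw => k (mk_mem_prod hw hv))⟩).ge Submodule.mem_top
  exact (Submodule.eq_top_of_nonempty_interior' (R.comap (wl u))
    ⟨p.2, mem_interior_iff_mem_nhds.2 (mem_of_superset hB h1)⟩).ge Submodule.mem_top

theorem inj_of {N : (Fin 10 → ℂ) →ₗ[ℂ] M5} (h : ∀ u v, wd u v ∈ LinearMap.range N) :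
    Injective N := by
  let π : M5 →ₗ[ℂ] ({p : Fin 5 × Fin 5 // p.1 < p.2} → ℂ) :=
    { toFun := fun M p => M p.1.1 p.1.2, map_add' := fun _ _ => rfl, map_smul' := fun _ _ => rfl }
  have h1 : LinearMap.range (π.comp N) = ⊤ := by
    refine (Submodule.eq_top_iff_forall_basis_mem (Pi.basisFun ℂ _)).2 fun p => ?_
    obtain ⟨w, hw⟩ := h (Pi.single p.1.1 1) (Pi.single p.1.2 1)
    refine ⟨w, funext fun q => (congrArg (fun M : M5 => M q.1.1 q.1.2) hw).trans ?_⟩
    have h2 := p.2
    have h3 := q.2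
    simp only [wd, Matrix.of_apply, Pi.basisFun_apply, Pi.single_apply, Subtype.ext_iff,
      Prod.ext_iff, ite_mul, one_mul, zero_mul]
    split_ifs <;> first | omega | simp
  refine Injective.of_comp (f := π) ((LinearMap.injective_iff_surjective_of_finrank_eq_finrank
    (f := π.comp N) ?_).2 (LinearMap.range_eq_top.1 h1))
  rw [Module.finrank_fintype_fun_eq_card, Module.finrank_fintype_fun_eq_card]
  decide

variable (N : (Fin 10 → ℂ) →ₗ[ℂ] M5)

/-- a column -/
def col (b : Fin 5) : (Fin 10 → ℂ) →L[ℂ] V5 := LinearMap.toContinuousLinearMap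
  { toFun := fun w c => N w c b
    map_add' := fun _ _ => by rw [map_add]; rfl
    map_smul' := fun _ _ => by rw [map_smul]; rfl }

/-- a row -/
def row (a : Fin 5) : (Fin 10 → ℂ) →L[ℂ] V5 := LinearMap.toContinuousLinearMap
  { toFun := fun w c => N w a c
    map_add' := fun _ _ => by rw [map_add]; rfl
    map_smul' := fun _ _ => by rw [map_smul]; rfl }

variable {N} {f : Cm 6 → Fin 10 → ℂ} {f' : Cm 6 →L[ℂ] Fin 10 → ℂ} {z : Cm 6}

theorem d_plk (hf : HasFDerivAt f f' z) (h : ∀ᶠ y in 𝓝 z, Dec (N (f y))) (a b c d : Fin 5)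
    (ξ : Cm 6) : N (f z) c b * N (f' ξ) a d + N (f z) a d * N (f' ξ) c b -
      (N (f z) d b * N (f' ξ) a c + N (f z) a c * N (f' ξ) d b) =
      N (f z) a b * N (f' ξ) c d + N (f z) c d * N (f' ξ) a b := by
  have h1 : ∀ c d, HasFDerivAt (fun y => N (f y) c d)
      ((ContinuousLinearMap.proj d).comp ((row N c).comp f')) z := fun c d =>
    (ContinuousLinearMap.proj (R := ℂ) (φ := fun _ : Fin 5 => ℂ) d).hasFDerivAt.comp z
      ((row N c).hasFDerivAt.comp z hf)
  exact DFunLike.congr_fun ((((h1 c b).mul (h1 a d)).sub ((h1 d b).mul (h1 a c))).unique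
    (((h1 a b).mul (h1 c d)).congr_of_eventuallyEq (h.mono fun y hy => plk hy a b c d))) ξ

end ImbH

open ImbH in
/-- row IMB -/
theorem imb : IMB := fun N f z hf hD hi => by
  have h0 := hD.self_of_nhds
  obtain ⟨a, b, hab⟩ : ∃ a b, N (f z) a b ≠ 0 := by
    by_contra k
    push Not at k
    exact h0.1 (Matrix.ext k)
  let p : Cm 6 × (Fin 4 → ℂ) := (z, ![1, 0, 0, 1])
  have h1 : HasStrictFDerivAt (fun q : Cm 6 × (Fin 4 → ℂ) => f q.1)
      ((fderiv ℂ f z).comp (ContinuousLinearMap.fst ℂ _ _)) p :=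
    HasStrictFDerivAt.comp p (g := f) hf.hasStrictFDerivAt hasStrictFDerivAt_fst
  have hu := (col N b).hasStrictFDerivAt.comp p h1
  have hv := (row N a).hasStrictFDerivAt.comp p h1
  have hc : ∀ k, HasStrictFDerivAt (fun q : Cm 6 × (Fin 4 → ℂ) => q.2 k)
      ((ContinuousLinearMap.proj k).comp (ContinuousLinearMap.snd ℂ _ _)) p := fun k =>
    ((ContinuousLinearMap.proj (R := ℂ) (φ := fun _ : Fin 4 => ℂ) k).comp
      (ContinuousLinearMap.snd ℂ (Cm 6) (Fin 4 → ℂ))).hasStrictFDerivAt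
  have h2 := (((hc 0).smul hu).add ((hc 1).smul hv)).prodMk (((hc 2).smul hu).add ((hc 3).smul hv))
  have h3 := h2.map_nhds_eq_of_surj (LinearMap.range_eq_top.2
    ((LinearMap.injective_iff_surjective_of_finrank_eq_finrank (by simp)).1
      ((injective_iff_map_eq_zero _).2 fun q hq => by
    have k1 : ∀ c, N (fderiv ℂ f z q.1) c b + q.2 0 * N (f z) c b + q.2 1 * N (f z) a c = 0 :=
      fun c => by simpa [p, col, row] using congrFun (congrArg Prod.fst hq) c
    have k2 : ∀ c, q.2 2 * N (f z) c b + (N (fderiv ℂ f z q.1) a c + q.2 3 * N (f z) a c) = 0 :=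
      fun c => by simpa [p, col, row] using congrFun (congrArg Prod.snd hq) c
    have k3 : q.1 = 0 := hi q.1 (-(N (fderiv ℂ f z q.1) a b / N (f z) a b + q.2 0 + q.2 3))
      (Matrix.ext fun c d => mul_left_cancel₀ hab (by
        rw [Matrix.smul_apply, smul_eq_mul]
        field_simp
        linear_combination -d_plk hf.differentiableAt.hasFDerivAt hD a b c d q.1 +
          N (f z) c b * k2 d + N (f z) a d * k1 c - N (f z) d b * k2 c - N (f z) a c * k1 d -
          (q.2 0 + q.2 3) * plk h0 a b c d))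
    have k4 := k1 a
    have k5 := k1 b
    have k6 := k2 a
    have k7 := k2 b
    simp only [k3, map_zero, Matrix.zero_apply, diag h0, mul_zero, add_zero, zero_add,
      mul_eq_zero, hab, or_false] at k4 k5 k6 k7
    refine Prod.ext k3 (funext fun j => ?_)
    fin_cases j <;> assumption)))
  refine inj_of (all_of (h3.ge ?_))
  refine mem_map.2 ((continuousAt_fst.eventually (show ∀ᶠ y in 𝓝 p.1, _ from hD)).mono
    fun q hq => ⟨((q.2 0 * q.2 3 - q.2 1 * q.2 2) * N (f q.1) a b) • f q.1, ?_⟩)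
  rw [map_smul]
  refine Matrix.ext fun c d => ?_
  simp only [wd, col, row, Matrix.of_apply, Matrix.smul_apply, smul_eq_mul, Pi.add_apply,
    Pi.smul_apply', Pi.smul_apply, LinearMap.coe_toContinuousLinearMap', LinearMap.coe_mk,
    AddHom.coe_mk]
  linear_combination -(q.2 0 * q.2 3 - q.2 1 * q.2 2) * plk hq a b c d

end Vale.Agent.P280Z.En
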