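import Vale.Agent.P280Z.En.Defs
import Vale.Agent.P280Z.Ld.Va

/-!
# P280Z, rows LADG and LADT: the ladder of a del Pezzo manifold of degree five
-/

open scoped Manifold ContDiff Topology Matrix
open Set Filter
open Vale.Agent.P272.K Vale.Agent.P285.H281.FD Vale.Agent.P281Z Vale.Agent.P280Z.Ld
open Vale.Agent.P277.HD (pull)
open Module (finrank)

noncomputable section

namespace Vale.Agent.P280Z.En

namespace LadH

theorem ex_cut (ld : LD) {n : ℕ} {V : Mf (n + 1)} {L : Bd V.X} (hL : IsLB (n + 1) L)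
    (hb : Bpf (n + 1) L) : ∃ (σ : L.ι → V.X → ℂ) (Z : Mf n) (i : Z.X → V.X),
      Cut L σ i ∧ σ ∈ Γ (n + 1) L := by
  obtain ⟨r, s, hs, h0⟩ := ld.span V L {s | IsSec (n + 1) L s} hL (fun _ h => h) hb
  obtain ⟨c, Z, i, hc⟩ := (ld.ber V L _ s hL hs (h0 ▸ countable_empty)
    fun x hx => absurd (h0 ▸ hx) (notMem_empty x)).exists
  exact ⟨_, Z, i, hc.nm, nm_mem hL hc.sec⟩

theorem gen_step (gns : GNS) (pow : POW) (cutd : CUTD) {T : CT} (hT : T.OK) {n : ℕ}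
    {V : Mf (n + 1)} {Z : Mf n} {L : Bd V.X} {σ : L.ι → V.X → ℂ} {i : Z.X → V.X} (dp : DP T V L)
    (hc : Cut L σ i) (hσ : σ ∈ Γ (n + 1) L) (h : ∀ m, Rm n (pull i L) (m + 2) ≤
      (Γ (n + 1) L).map (rA i L).toLinearMap ^ (m + 2)) (m : ℕ) :
    Rm (n + 1) L (m + 1) ≤ Γ (n + 1) L ^ (m + 1) := by
  obtain ⟨p1, p2, -⟩ := pow V L dp.lb
  have k := gns _ _ (rA i L) (Rm (n + 1) L) σ
  rw [p1] at k
  exact k hσ p2 (fun m f hf => h m (res_mem (L := L.pow (m + 2)) hc.emb.hol hf))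
    (cutd T hT dp hc hσ).2.2.2.1 m

theorem tan_step (ld : LD) (tns : TNS) (pow : POW) (cutd : CUTD) {T : CT} (hT : T.OK) {n : ℕ}
    {V : Mf (n + 1)} {Z : Mf n} {L : Bd V.X} {σ : L.ι → V.X → ℂ} {i : Z.X → V.X} (dp : DP T V L)
    (hc : Cut L σ i) (hσ : σ ∈ Γ (n + 1) L) (a : L.ι) (z : Z.X) :
    finrank ℂ (Tn (Γ (n + 1) L) (evA L a (i z))) ≤
      finrank ℂ (Tn ((Γ (n + 1) L).map (rA i L).toLinearMap) (evA (pull i L) a z)) + 1 := by
  obtain ⟨p1, p2, -⟩ := pow V L dp.lb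
  obtain ⟨c1, c2, -, c4, -⟩ := cutd T hT dp hc hσ
  refine tns _ _ (rA i L) (Γ (n + 1) L) σ (evA (pull i L) a z)
    (ld.fin V L ((hT.po.kah V).2 ⟨_, dp.kc⟩) dp.lb) hσ c1 c2 fun f hf h0 => ?_
  rw [← sq] at hf
  obtain ⟨t, ht, e⟩ := c4 0 f (p2 1 hf) h0
  exact ⟨t, p1 ▸ ht, e⟩

end LadH

open LadH

/-- **row LADG** -/
theorem ladg_of (ld : LD) (alb : ALB) (_ : TNS) (gns : GNS) (pow : POW) (cutd : CUTD)
    (base : BASE) : LADG := by
  intro T hT n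
  induction n with
  | zero =>
    intro V L dp
    obtain ⟨σ, Z, i, hc, hσ⟩ := ex_cut ld dp.lb dp.bpf
    obtain ⟨b1, b2, d, b3, b4, -⟩ := base T hT dp hc hσ
    have c5 := (cutd T hT dp hc hσ).2.2.2.2.1
    refine ⟨b1, by rw [c5, b2, show h0 (0 + 1) L = 5 from b1]; rfl,
      gen_step gns pow cutd hT dp hc hσ fun m => (b4 m).trans ?_⟩
    exact Submodule.span_le.2 (range_subset_iff.2 ((alb _ _ d b3).1 m))
  | succ n ih =>
    intro V L dp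
    obtain ⟨σ, Z, i, hc, hσ⟩ := ex_cut ld dp.lb dp.bpf
    obtain ⟨-, -, -, -, c5, c6⟩ := cutd T hT dp hc hσ
    obtain ⟨d1, d2, d3⟩ := c6 (by omega)
    obtain ⟨i1, i2, i3⟩ := ih d1
    refine ⟨by omega, ?_, gen_step gns pow cutd hT dp hc hσ fun m => d2 ▸ i3 (m + 1)⟩
    rw [c5, mul_add, i2, d3, i1]
    ring

/-- **row LADT** -/
theorem ladt_of (ld : LD) (alb : ALB) (tns : TNS) (_ : GNS) (pow : POW) (cutd : CUTD)
    (base : BASE) : LADT := by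
  intro T hT n
  induction n with
  | zero =>
    intro V L ι _ s dp va a x ha
    obtain ⟨σ, Z, i, z, hc, rfl⟩ := va.cut ld.ber x
    have hσ := nm_mem dp.lb hc.sec
    obtain ⟨-, -, d, b3, -, b5⟩ := base T hT dp hc.nm hσ
    obtain ⟨j, hj⟩ := b5 a z ha
    exact (tan_step ld tns pow cutd hT dp hc.nm hσ a z).trans
      (Nat.succ_le_succ ((alb _ _ d b3).2 (evA (pull i L) a z) j hj))
  | succ n ih =>
    intro V L ι _ s dp va a x ha
    obtain ⟨σ, Z, i, z, hc, rfl⟩ := va.cut ld.ber x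
    have hσ := nm_mem dp.lb hc.sec
    obtain ⟨d1, d2, -⟩ := (cutd T hT dp hc.nm hσ).2.2.2.2.2 (by omega)
    exact (tan_step ld tns pow cutd hT dp hc.nm hσ a z).trans
      (Nat.succ_le_succ (d2 ▸ ih d1 (va.pull hc.emb) a z ha))

end Vale.Agent.P280Z.En
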