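import Vale.Agent.P280Z.En.Defs

/-!
# P280Z, block EN: five quadrics
-/

open scoped Matrix Pointwise
open Set
open Module (finrank)

noncomputable section

namespace Vale.Agent.P280Z.En

namespace Quad

/-- ordered pairs -/
abbrev T : Type := {p : Fin 10 × Fin 10 // p.1 ≤ p.2}

theorem card_T : Fintype.card T = 55 := by rfl

/-- the triangular matrix of coefficients -/
def C (c : T → ℂ) : Matrix (Fin 10) (Fin 10) ℂ :=
  Matrix.of fun i j => if h : i ≤ j then c ⟨(i, j), h⟩ else 0

theorem sum_C {M : Type} [AddCommGroup M] [Module ℂ M] (c : T → ℂ) (g : Fin 10 → Fin 10 → M) :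
    ∑ i, ∑ j, C c i j • g i j = ∑ p : T, c p • g p.1.1 p.1.2 := by
  rw [← Fintype.sum_prod_type' fun i j => C c i j • g i j,
    ← Fintype.sum_subtype_add_sum_subtype fun p : Fin 10 × Fin 10 => p.1 ≤ p.2,
    Finset.sum_eq_zero (s := (Finset.univ : Finset {p : Fin 10 × Fin 10 // ¬ p.1 ≤ p.2}))
      fun p _ => by rw [C, Matrix.of_apply, dif_neg p.2, zero_smul], add_zero]
  exact Finset.sum_congr rfl fun p _ => by rw [C, Matrix.of_apply, dif_pos p.2]

theorem sum_B {M : Type} [AddCommGroup M] [Module ℂ M] (c : T → ℂ) (g : Fin 10 → Fin 10 → M) :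
    ∑ i, ∑ j, (C c + (C c)ᵀ) i j • g i j = ∑ p : T, c p • (g p.1.1 p.1.2 + g p.1.2 p.1.1) := by
  rw [← sum_C c fun i j => g i j + g j i]
  simp only [Matrix.add_apply, Matrix.transpose_apply, add_smul, smul_add, Finset.sum_add_distrib]
  rw [Finset.sum_comm (f := fun i j => C c j i • g i j)]

theorem range_eq {A : Type} [CommRing A] [Algebra ℂ A] (s : Fin 10 → A) :
    LinearMap.range (Fintype.linearCombination ℂ fun p : T => s p.1.1 * s p.1.2) =
      Submodule.span ℂ (range s) * Submodule.span ℂ (range s) := by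
  rw [Fintype.range_linearCombination, Submodule.span_mul_span]
  congr 1
  refine Subset.antisymm ?_ ?_
  · rintro _ ⟨p, rfl⟩
    exact ⟨_, mem_range_self _, _, mem_range_self _, rfl⟩
  · rintro _ ⟨_, ⟨i, rfl⟩, _, ⟨j, rfl⟩, rfl⟩
    rcases le_total i j with h | h
    · exact ⟨⟨(i, j), h⟩, rfl⟩
    · exact ⟨⟨(j, i), h⟩, mul_comm _ _⟩

end Quad

open Quad in
theorem quad : QUAD := by
  intro A _ _ s W hs hW h50
  subst hW
  have h1 := (Fintype.linearCombination ℂ fun p : T =>
    s p.1.1 * s p.1.2).finrank_range_add_finrank_ker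
  rw [range_eq, h50, Module.finrank_fintype_fun_eq_card, card_T] at h1
  let b := Module.finBasisOfFinrankEq ℂ _ (show finrank ℂ (LinearMap.ker
    (Fintype.linearCombination ℂ fun p : T => s p.1.1 * s p.1.2)) = 5 by omega)
  refine ⟨fun k => C (b k).1 + (C (b k).1)ᵀ, fun k => by
    rw [Matrix.transpose_add, Matrix.transpose_transpose, add_comm], fun k => ?_, fun ε => ?_⟩
  · have h2 : ∑ p : T, (b k).1 p • (s p.1.1 * s p.1.2) = 0 := (b k).2
    rw [sum_B]
    simp only [mul_comm (s (_ : T).1.2), smul_add, Finset.sum_add_distrib, h2, add_zero]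
  have := Module.Finite.span_of_finite ℂ (finite_range s)
  let e := (Module.Basis.span hs).constr (M' := ℂ) ℂ
  rw [← e.finrank_map_eq]
  refine Submodule.finrank_mono ?_
  rintro _ ⟨w, hw, rfl⟩
  obtain ⟨l, hl⟩ : (Fintype.linearCombination ℂ fun p : T =>
      ε (s p.1.1) * w p.1.2 + ε (s p.1.2) * w p.1.1) ∈ LinearMap.range
        (Fintype.linearCombination ℂ fun p : T => s p.1.1 * s p.1.2).dualMap := by
    rw [LinearMap.range_dualMap_eq_dualAnnihilator_ker, Submodule.mem_dualAnnihilator]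
    intro c hc
    rw [show c = (⟨c, hc⟩ : LinearMap.ker _).1 from rfl, ← b.sum_repr ⟨c, hc⟩, Submodule.coe_sum,
      map_sum]
    refine Finset.sum_eq_zero fun k _ => ?_
    rw [Submodule.coe_smul, map_smul, Fintype.linearCombination_apply,
      ← sum_B (b k).1 fun i j => ε (s i) * w j]
    refine smul_eq_zero_of_right _ (Eq.trans ?_ (congrFun hw k))
    simp only [Matrix.mulVecLin_apply, Matrix.mulVec, dotProduct, Dq, Matrix.of_apply,
      Matrix.vecMul, Finset.sum_mul, smul_eq_mul]
    rw [Finset.sum_comm]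
    exact Finset.sum_congr rfl fun j _ => Finset.sum_congr rfl fun i _ => by ring
  have h3 : ∀ p : T, l (s p.1.1 * s p.1.2) = ε (s p.1.1) * w p.1.2 + ε (s p.1.2) * w p.1.1 :=
    fun p => by simpa using LinearMap.congr_fun hl (Pi.single p 1)
  have h4 : ∀ i j, l (s i * s j) = ε (s i) * w j + w i * ε (s j) := fun i j => by
    rcases le_total i j with h | h
    · rw [h3 ⟨(i, j), h⟩]; ring
    · rw [mul_comm, h3 ⟨(j, i), h⟩]; ring
  refine ⟨l, fun x y => ?_⟩
  have h5 : ∀ z : Submodule.span ℂ (range s), z.1 = ∑ i, (Module.Basis.span hs).repr z i • s i ∧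
      e w z = ∑ i, (Module.Basis.span hs).repr z i • w i := fun z => by
    refine ⟨?_, Module.Basis.constr_apply_fintype _ _ _ _⟩
    conv_lhs => rw [← (Module.Basis.span hs).sum_repr z]
    simp
  show l (x.1 * y.1) = ε x.1 * e w y + e w x * ε y.1
  rw [(h5 x).1, (h5 y).1, (h5 x).2, (h5 y).2]
  simp only [Finset.sum_mul, Finset.mul_sum, map_sum, smul_mul_assoc, mul_smul_comm, map_smul,
    smul_eq_mul, h4, ← Finset.sum_add_distrib]
  exact Finset.sum_congr rfl fun i _ => Finset.sum_congr rfl fun j _ => by ring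

end Vale.Agent.P280Z.En
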