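import Vale.Agent.P280Z.En.Defs
import Vale.Agent.P281Z.Mf.An

/-!
# P280Z, block EN: Riemann-Roch on curves; line bundles on Fano manifolds
-/

open scoped Manifold ContDiff Topology
open Set Filter
open Vale.Agent.P272.K Vale.Agent.P285.H281.FD Vale.Agent.P281Z Vale.Agent.P280Z.Ld

noncomputable section

namespace Vale.Agent.P280Z.En

theorem ex_one {B : Type} [CommRing B] [Algebra ℝ B] (W : PowerSeries B) :
    PowerSeries.coeff 1 (Ex W) = PowerSeries.coeff 0 W := by
  rw [Ex, PowerSeries.coeff_mk, exc.eq_2 W 0]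
  simp [exc]

theorem hr1_of (hH : Hr.HRR) : HR1 := fun T hT V M hM hA => by
  rw [hH T hT V M hM hA, CT.RR, ex_one, map_add, PowerSeries.coeff_zero_C, TL, PowerSeries.coeff_mk,
    zero_add, hT.ch.tan, map_add, map_smul, map_neg, bernoulli_one]
  norm_num
  ring

/-- the zero set of a nonzero section is thin -/
theorem dense_nz {n : ℕ} {V : Mf n} [PreconnectedSpace V.X] {L : Bd V.X} (hL : IsLB n L)
    {s : L.ι → V.X → ℂ} (hs : s ∈ Γ n L) (h0 : s ≠ 0) : Dense {x | NZ L s x} := by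
  have hA : An n {x | ¬ NZ L s x} := fun x => (hL.cover x).elim fun a ha =>
    ⟨1, fun _ => s a, fun _ => sec_hol hs.1 ha, (lb_near hL ha).mono fun y hy =>
      (not_nz hL hs.1 hy).trans (forall_const _).symm⟩
  have := (hA.thin fun e => h0 (Γ_ext hs (zero_mem _) fun a x ha =>
    (not_nz hL hs.1 ha).1 (eq_univ_iff_forall.1 e x))).dense
  simpa only [compl_ofPred, not_not] using this

theorem triv_of (hL : LD) (hH : Hr.HRR) (hP : POW) : TRIV := fun T hT n V M M' hc hK hM hM' e => by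
  rcases isEmpty_or_nonempty V.X with h | h
  · exact ⟨fun _ _ _ => 1, fun _ _ x => h.elim x, fun _ _ x => h.elim x, fun _ _ _ _ x => h.elim x⟩
  have lD := lb_mul hM (lb_zp hM' (-1))
  have cD := cls_mul hM (lb_zp hM' (-1))
  rw [cls_zp hM', neg_smul, one_smul] at cD
  generalize M.mul (zp M' (-1)) = D at lD cD
  have e1 : T.c1 V D = 0 := by
    obtain ⟨t, ht⟩ := (cls_eq (lb_mul lD hM') hM).1 (by rw [cls_mul lD hM', cD, neg_add_cancel_right])
    have k := (hL.iso V _ _ t (lb_mul lD hM') hM ht).1 T hT.c1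
    rw [hT.c1.mul V _ _ lD hM', e] at k
    exact add_eq_right.1 k
  have e2 : T.c1 V (M.pow 0) = 0 := by rw [hT.c1.pow V M 0 hM, Nat.cast_zero, zero_smul]
  have k1 := hH T hT V D lD (by rw [Ap, e1, zero_sub]; exact hK)
  have k2 := hH T hT V _ (lb_pow hM 0) (by rw [Ap, e2, zero_sub]; exact hK)
  rw [e1, ← e2, ← k2, ((hP V M hM).2.2 hc).2 h, Nat.cast_inj] at k1
  have : Nontrivial (Γ n D) := Module.nontrivial_of_finrank_eq_succ (R := ℂ) k1
  obtain ⟨s, hs⟩ := exists_ne (0 : Γ n D)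
  have hd := dense_nz lD s.2 fun k => hs (Subtype.ext k)
  have hz : ∀ x, NZ D s.1 x := by
    by_contra! c
    cases n with
    | zero =>
      have := ChartedSpace.discreteTopology (Cm 0) V.X
      obtain ⟨x, hx⟩ := c
      exact hx (eq_univ_iff_forall.1 (dense_discrete.1 hd) x)
    | succ n =>
      have k := (hT.eff V D s.1 n (fun _ => -T.c1 V (Bd.can (n + 1) V.X)) rfl lD s.2.1 hd
        fun _ => hT.po.mono hK fun _ => bot_le).2 (fun _ => hK) c
      rw [e1, zero_mul, map_zero] at k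
      exact lt_irrefl _ k
  rw [cls_sec lD s.2.1 hz] at cD
  exact (cls_eq hM hM').1 (add_neg_eq_zero.1 cD.symm)

end Vale.Agent.P280Z.En
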