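import Vale.Agent.P280Z.En.Sk
import Vale.Agent.P280Z.En.Alg
import Vale.Agent.P280Z.En.Quad
import Vale.Agent.P280Z.En.Pla
import Vale.Agent.P280Z.En.Gra
import Vale.Agent.P280Z.En.Imb
import Vale.Agent.P280Z.En.Wr
import Vale.Agent.P280Z.En.Triv
import Vale.Agent.P280Z.En.Cutd
import Vale.Agent.P280Z.En.Base
import Vale.Agent.P280Z.En.Lad
import Vale.Agent.P280Z.En.Val
import Vale.Agent.P280Z.En.Plk
import Vale.Agent.P280Z.En.Fld
import Vale.Agent.P280Z.Ld.All

/-!
# P280Z, block EN: the result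
-/

namespace Vale.Agent.P280Z.En

open Ld

theorem cutd : CUTD := cutd_of ld pow_

/-- **DP5** -/
theorem dp5 (h : Hr.HRR) : DP5 :=
  have B := base_of ld (hr1_of h) cutd
  dp5_of fin pow_ (ladg_of ld alb tns gns pow_ cutd B) (val_of va)
    (ladt_of ld alb tns gns pow_ cutd B) quad (triv_of ld h pow_) (plk_of iso wr pla) (ima_of iso) imb
    (gen_of gra fld)

end Vale.Agent.P280Z.En
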