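import Vale.Agent.P280Z.En.Qe
import Vale.Agent.P280Z.Qs.Q3
import Vale.Agent.P280Z.R1.Xt

/-!
# P280Z, block EN: the quadric of dimension three
-/

namespace Vale.Agent.P280Z.En

theorem c31 : Cv.CS 3 1 := fun T t _ _ _ _ _ _ _ _ _ F E h _ _ =>
  qe (by norm_num) (by norm_num) h t.hrr (Qs.q3 h.ns (R1.xt T t F E h))

end Vale.Agent.P280Z.En
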