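import Vale.Agent.P280Z.En.Qe
import Vale.Agent.P280Z.Qs.Q6
import Vale.Agent.P280Z.R1.Xt

/-!
# P280Z, block EN: the quadric of dimension six
-/

namespace Vale.Agent.P280Z.En

theorem van_xt {A B : Type} [CommRing A] [Algebra ℝ A] [CommRing B] [Algebra ℝ B] {S : NS A B}
    {n r : ℕ} (x : S.Xt n r) (hr : 0 < r) : Qs.Van S r := fun lam mu h e => by
  have := x.van 1 0 lam mu (-1) 0 hr h (by norm_num) (by rw [← e]; simp) (by simp)
  simpa [NS.χF] using this

theorem c64 : Cv.CS 6 4 := fun T t _ _ _ _ _ _ _ _ _ F E h _ _ =>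
  have x := R1.xt T t F E h
  qe (by norm_num) (by norm_num) h t.hrr (Qs.q6 h.ns x.td x.intX (van_xt x (by norm_num)))

end Vale.Agent.P280Z.En
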