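import Vale.Agent.P280Z.Gm.All
import Vale.Agent.P280Z.Ma.All
import Vale.Agent.P280Z.Cv.Cmp
import Vale.Agent.P280Z.Cv.Sk2

/-!
# P280Z, block EN: fibres of a family of curves, the fundamental line bundle
-/

open scoped Manifold ContDiff Topology
open Set Filter
open Vale.Agent.P272.K Vale.Agent.P285.H281.FD Vale.Agent.P281Z
open Vale.Agent.P277Z.Slc (lin isLB_can)
open Vale.Agent.P277.HD (pull)
open Vale.Agent.P280Z.Gm
open Vale.Agent.P280Z.Mp (Eqs)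

noncomputable section

namespace Vale.Agent.P280Z.En

variable {T : CT}

/-- the tangent bundle of a fibre; classes of the base vanish on a fibre -/
theorem fb (hT : T.OK) {u n m : ℕ} {U : Mf u} {V : Mf n} {e : U.X → V.X} (se : Sub u n e)
    (hd : u = n + m) {E : VB U.X} (hE : IsRel e m E) {x : V.X} {Z : Mf m} {i : Z.X → U.X}
    (hi : Emb m u i (e ⁻¹' {x})) :
    (∀ k, T.ps Z (VB.tan m Z.X) (k + 1) = T.pull hi.hol (T.ps U E (k + 1))) ∧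
      ∀ k a, T.Dg V (k + 1) a → T.pull hi.hol (T.pull se.hol a) = 0 := by
  have c := FibiH.cart hd se hi
  have z : ∀ k (a : T.H FibiH.pt), T.Dg _ (k + 1) a → a = 0 := fun k a h =>
    h.symm.trans (hT.rg.pr_zero _ _ _ k.succ_pos)
  refine ⟨fun k => ?_, fun k a ha => ?_⟩
  · obtain ⟨E', hE'⟩ := Ma.rel.ex _ m c.sf' (zero_add m).symm
    rw [(Ma.rel.ps T hT c.sf'.hol hE').2.2, z k _ (hT.ch.deg _ _ _), map_zero, add_zero]
    exact Ma.rel.bc T hT c hE hE' _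
  · have h := c.hg.comp c.sf'.hol
    rw [← hT.rg.pull_comp hi.hol se.hol h fun w => (c.comm w).symm,
      hT.rg.pull_comp c.sf'.hol c.hg h fun _ => rfl, z k (T.pull c.hg a), map_zero]
    rw [CT.Dg, ← hT.rg.pull_pr, ha]

/-- the curves through the points of a manifold -/
theorem crv (hT : T.OK) {k d : ℕ} {K : Mf k} {U : Mf (k + 1)} {p : U.X → K.X}
    (sp : Sub (k + 1) k p) {Z : Mf d} {g : Z.X → U.X} (hg : HolM d (k + 1) g) :
    ∃ (W : Mf (d + 1)) (j : W.X → U.X) (hj : HolM (d + 1) (k + 1) j),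
      (∀ u, u ∈ range j ↔ ∃ z, p (g z) = p u) ∧
      ∀ a, T.int W (T.pull hj a) = T.int Z (T.pull hg (T.dem sp.hol a)) := by
  obtain ⟨W, f, j, c, -⟩ := fp (d + 1) p (fun z => p (g z)) (by omega) sp (sp.hol.comp hg)
  refine ⟨W, j, c.hg', fun u => ⟨?_, fun ⟨z, h⟩ => ?_⟩, fun a => ?_⟩
  · rintro ⟨w, rfl⟩
    exact ⟨f w, (c.comm w).symm⟩
  · obtain ⟨w, h, -⟩ := c.uniq z u h
    exact ⟨w, h.2⟩
  · rw [← hT.pu.int c.sf', ← hT.pu.bc c, hT.rg.pull_comp hg sp.hol c.hg fun _ => rfl]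
    rfl

/-- a family of curves of degree one on a manifold of Picard number one -/
structure Fs (T : CT) {n k : ℕ} {X : Mf n} {K : Mf k} {U : Mf (k + 1)} (p : U.X → K.X)
    (e : U.X → X.X) (η : T.H X) (c : ℝ) : Prop where
  sp : Sub (k + 1) k p
  se : Sub (k + 1) n e
  cX : ConnectedSpace X.X
  cU : ConnectedSpace U.X
  cp : ∀ l, IsPreconnected (p ⁻¹' {l})
  kc : T.Kc X η
  pos : 0 < c
  can : T.c1 X (Bd.can n X.X) = (-c) • η
  h2 : ∀ L, IsLB n L → ∃ a : ℝ, T.c1 X L = a • η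
  deg : T.dem sp.hol (T.pull se.hol η) = 1

theorem fs_of {n N r d D k δ m : ℕ} {V : Mf n} {P : Eqs r N} {pt : Cm N → V.X}
    {F : Mp.Fam V P pt d D k} {E : VB F.U.X} (h : Cv.Sit T δ F m E) :
    Fs T F.p F.e ((d : ℝ)⁻¹ • T.c1 V (O1 P pt)) (m + 2) := by
  obtain ⟨o1, o2, -⟩ := Ma.o1p V P pt h.hyp.cone
  refine ⟨⟨F.p_hol, F.p_sbm⟩, ⟨F.e_hol, F.e_sbm⟩, h.fano.1, h.cU,
    fun l => (Cv.CmpH.fib F h.hyp.pos l).2, h.ok.po.smul _ (inv_pos.2 (by exact_mod_cast h.hyp.pos))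
      (h.ok.c1.pos V _ o1 o2), by positivity, ?_, fun L _ => h.ns.b2 _ (h.ok.c1.deg V L), h.ns.Tη⟩
  rw [neg_smul, eq_neg_iff_add_eq_zero, add_eq_zero_iff_neg_eq, ← h.ok.ch.tan]
  exact h.ns.c1

namespace Fs
variable {n k : ℕ} {X : Mf (n + 1)} {K : Mf k} {U : Mf (k + 1)} {p : U.X → K.X} {e : U.X → X.X}
  {η : T.H X} {c : ℝ}

theorem fa (hT : T.OK) {n : ℕ} {X : Mf n} {e : U.X → X.X} {η : T.H X} (h : Fs T p e η c) :
    Fa T X := by
  rw [Fa, h.can, ← neg_smul, neg_neg]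
  exact hT.po.smul c h.pos h.kc

theorem vol (hT : T.OK) {n : ℕ} {X : Mf n} {e : U.X → X.X} {η : T.H X} (h : Fs T p e η c) :
    0 < T.int X (η ^ n) := by
  obtain ⟨x⟩ := h.cX.toNonempty
  simpa using hT.po.pos 0 n x h.kc h.kc (zero_add n) rfl (by simp)

/-- a hypersurface of degree at most one -/
theorem one (hT : T.OK) (h : Fs T p e η c) {W : Mf n} {g : W.X → X.X} (hg : HolM n (n + 1) g)
    (hW : T.int W (T.pull hg (η ^ n)) = T.int X (η ^ (n + 1))) :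
    ∃ (M : Bd X.X) (σ : M.ι → X.X → ℂ), IsLB (n + 1) M ∧ IsSec (n + 1) M σ ∧ T.c1 X M = η ∧
      ∀ x, x ∉ range g → NZ M σ x := by
  have hv := h.vol hT
  have hb : ∀ a, IsLB (n + 1) (![Bd.can (n + 1) X.X] a) := Fin.forall_fin_one.2 isLB_can
  have hA := lb_lin hb ![-1]
  have cA : T.c1 X (lin ![Bd.can (n + 1) X.X] ![-1]) = c • η := by
    rw [hT.c1.lin X _ _ hb, Fin.sum_univ_one]
    simp [h.can]
  obtain ⟨l, r, s, hk, hs⟩ := Ld.va X _ hA (hT.kp X _ hA (cA ▸ hT.po.smul c h.pos h.kc))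
  have cH := hT.c1.pow X _ l hA
  rw [cA, smul_smul] at cH
  have hν : 0 < ((l : ℝ) * c) ^ n := by have := h.pos; positivity
  have a3 : T.int W (T.pull hg (T.c1 X ((lin ![Bd.can (n + 1) X.X] ![-1]).pow l) ^ n)) =
      ((l : ℝ) * c) ^ n * T.int X (η ^ (n + 1)) := by
    rw [cH, smul_pow, map_smul, map_smul, hW, smul_eq_mul]
  obtain ⟨M, σ, hM, hσ, b1, b2, b3, b4⟩ := up T hT X W g hg _ s h.cX hs (by rw [a3]; positivity)
  obtain ⟨a, ha⟩ := h.h2 M hM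
  have b5 : T.int X (T.c1 X ((lin ![Bd.can (n + 1) X.X] ![-1]).pow l) ^ n * T.c1 X M) =
      ((l : ℝ) * c) ^ n * (a * T.int X (η ^ (n + 1))) := by
    rw [cH, ha, smul_pow, smul_mul_smul_comm, ← pow_succ, map_smul, smul_eq_mul, mul_assoc]
  rw [a3, b5] at b4
  rw [b5] at b3
  have a0 : 0 < a := (mul_pos_iff_of_pos_right hv).1 ((mul_pos_iff_of_pos_left hν).1 b3)
  have a1 : a ≤ 1 := by nlinarith [le_of_mul_le_mul_left b4 hν]
  obtain ⟨u₀⟩ := h.cU.toNonempty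
  obtain ⟨u, hu⟩ := ((h.se.sbm u₀).freq (h.se.hol.at u₀)
    (mem_closure_iff_frequently.1 (b1 (e u₀)))).exists
  obtain ⟨⟨P, i, hi⟩, -⟩ := fibi T hT (d := 1) p (p u) rfl h.sp
  have hP : ConnectedSpace P.X := hi.conn.2 ⟨⟨u, rfl⟩, h.cp _⟩
  have hj := h.se.hol.comp hi.hol
  have c3 : T.int P (T.c1 P (pull (fun z => e (i z)) M)) = a := by
    have c := FibiH.cart rfl h.sp hi
    have hu : HolM 0 (k + 1) fun _ : FibiH.pt.X => u := contMDiff_const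
    rw [hT.c1.pull hj M hM, hT.rg.pull_comp hi.hol h.se.hol hj (fun _ => rfl), ha,
      ← hT.pu.int c.sf', ← hT.pu.bc c, hT.rg.pull_comp hu h.sp.hol c.hg fun _ => rfl]
    simp only [map_smul]
    rw [show T.pull h.sp.hol (T.push p (T.pull h.se.hol η)) = 1 from h.deg, map_one, hT.rg.int_pt,
      Nat.card_unique, Nat.cast_one, smul_eq_mul, mul_one]
  obtain ⟨z, hz⟩ := hi.ex (show u ∈ p ⁻¹' {p u} from rfl)
  have c4 := low T hT P _ _ inferInstance (hj.lb hM) (hj.sec hσ)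
    ⟨z, show NZ M σ (e (i z)) from hz ▸ hu⟩ (c3 ▸ a0)
  rw [c3] at c4
  exact ⟨M, σ, hM, hσ, by rw [ha, le_antisymm a1 c4, one_smul], b2⟩

/-- the fundamental line bundle -/
theorem fund (hT : T.OK) (hR : HRR T) (h : Fs T p e η c)
    (hW : ∀ y, ∃ (W : Mf n) (g : W.X → X.X) (hg : HolM n (n + 1) g),
      T.int W (T.pull hg (η ^ n)) = T.int X (η ^ (n + 1)) ∧ y ∉ range g) :
    ∃ L, IsLB (n + 1) L ∧ Bpf (n + 1) L ∧ T.c1 X L = η := by
  obtain ⟨x₀⟩ := h.cX.toNonempty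
  obtain ⟨W₀, g₀, hg₀, h₀, -⟩ := hW x₀
  obtain ⟨L, -, hL, -, cL, -⟩ := h.one hT hg₀ h₀
  refine ⟨L, hL, fun y => ?_, cL⟩
  obtain ⟨W, g, hg, h1, h2⟩ := hW y
  obtain ⟨M, σ, hM, hσ, cM, hz⟩ := h.one hT hg h1
  obtain ⟨t, ht⟩ := FunH.liso hT (rt T hT hR).2 h.cX (h.fa hT) hL hM (cL.trans cM.symm)
  exact ⟨_, ht.sec hL hM hσ, ht.nz hM (hz y h2)⟩

end Fs

end Vale.Agent.P280Z.En
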