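import Vale.Agent.P280Z.En.Cutd
import Vale.Agent.P280Z.En.Lad
import Vale.Agent.P280Z.En.Wr
import Vale.Agent.P280Z.Ld.All

/-!
# P280Z, block EN: the ladder of a manifold of minimal degree
-/

open scoped Manifold ContDiff Topology Matrix
open Set Filter
open Vale.Agent.P272.K Vale.Agent.P285.H281.FD Vale.Agent.P281Z Vale.Agent.P280Z.Ld
open Vale.Agent.P277.HD (pull)
open Module (finrank)

noncomputable section

namespace Vale.Agent.P280Z.En

/-- manifolds of minimal degree -/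
structure MD (T : CT) {n : ℕ} (V : Mf (n + 1)) (L : Bd V.X) (β : T.H V) (D : ℕ) : Prop where
  conn : PreconnectedSpace V.X
  lb : IsLB (n + 1) L
  bpf : Bpf (n + 1) L
  kc : T.Kc V (T.c1 V L)
  nn : T.Nn V β
  can : T.c1 V (Bd.can (n + 1) V.X) = -((n : ℝ) • T.c1 V L) - β
  pos : 0 < T.int V (T.c1 V L ^ n * β)
  deg : T.int V (T.c1 V L ^ (n + 1)) = D

namespace MdH

theorem pts (Z : Mf 0) {L : Bd Z.X} (h : IsLB 0 L) : (∀ m, Rm 0 L (m + 1) ≤ Γ 0 L ^ (m + 1)) ∧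
    ∀ a z, z ∈ L.U a → finrank ℂ (Tn (Γ 0 L) (evA L a z)) ≤ 1 := by
  classical
  obtain ⟨h1, -, h2⟩ := pt Z L h
  have := Fintype.ofFinite Z.X
  choose c hc using h.cover
  choose δ hδ using fun z => (h2 c hc).2 (Pi.single z 1)
  have e : ∀ z z', (δ z).1 (c z') z' = if z' = z then 1 else 0 := fun z z' =>
    (congrFun (hδ z) z').trans (Pi.single_apply _ _ _)
  have p := fun m z => Submodule.pow_mem_pow (Γ 0 L) (δ z).2 (m + 1)
  have sp : ∀ m, ∀ f ∈ Rm 0 L (m + 1), f = ∑ z, f (c z) z • (δ z).1 ^ (m + 1) := fun m f hf =>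
    Γ_ext' (L := L.pow (m + 1)) hf ((pow_ Z L h).2.1 m (Submodule.sum_mem _ fun z _ =>
      Submodule.smul_mem _ _ (p m z))) fun x => ⟨c x, hc x, by
        simp [Finset.sum_apply, e]⟩
  refine ⟨fun m f hf => ?_, fun a z ha => ?_⟩
  · rw [sp m f hf]
    exact Submodule.sum_mem _ fun z _ => Submodule.smul_mem _ _ (p m z)
  have e' : ∀ k, evA L a z (δ k).1 = L.g a (c z) z * if z = k then 1 else 0 := fun k => by
    rw [← e]
    exact (δ k).2.1.change a _ z ha (hc z)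
  refine (LinearMap.finrank_le_finrank_of_injective (f := (LinearMap.applyₗ (δ z)).comp
    (Tn (Γ 0 L) (evA L a z)).subtype) ((injective_iff_map_eq_zero _).2 ?_)).trans (by simp)
  rintro ⟨w, l, hl⟩ h0
  have k : ∀ k, w (δ k) = 0 := fun k => by
    by_cases hk : z = k
    · exact hk ▸ h0
    have h3 : (δ z).1 * (δ k).1 = 0 := Γ_ext' (L := L.pow 2) ((pow_ Z L h).2.1 1 (by
      rw [sq]; exact Submodule.mul_mem_mul (δ z).2 (δ k).2)) (zero_mem _) fun x => ⟨c x, hc x, by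
        change (δ z).1 _ _ * (δ k).1 _ _ = 0
        rw [e, e]
        split_ifs with k1 k2
        exacts [(hk (k1.symm.trans k2)).elim, mul_zero _, zero_mul _, zero_mul _]⟩
    have h4 := hl (δ z) (δ k)
    rw [h3, map_zero, e', e', if_pos rfl, if_neg hk, mul_zero, mul_zero, add_zero, mul_one] at h4
    exact (mul_eq_zero.1 h4.symm).resolve_left (h.ne_zero _ _ z ha (hc z))
  refine Subtype.ext (LinearMap.ext fun f => ?_)
  have h5 : f = ∑ z, f.1 (c z) z • δ z := Subtype.ext (by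
    simpa using sp 0 f.1 ((pow_ Z L h).1.ge f.2))
  change w f = 0
  rw [h5, map_sum]
  exact Finset.sum_eq_zero fun k' _ => by rw [map_smul, k, smul_zero]

variable {T : CT} {n : ℕ} {V : Mf (n + 1)} {Z : Mf n} {L : Bd V.X} {σ : L.ι → V.X → ℂ}
  {i : Z.X → V.X}

open CutdA in
theorem stp (tns : TNS) (gns : GNS) (hT : T.OK) (hV : PreconnectedSpace V.X) (hne : Nonempty V.X)
    (hK : T.Kc V (-T.c1 V (Bd.can (n + 1) V.X))) (hc : Cut L σ i) (hσ : σ ∈ Γ (n + 1) L) :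
    h0 (n + 1) L = 1 + h0 n (pull i L) ∧
    ((∀ m, Rm n (pull i L) (m + 1) ≤ Γ n (pull i L) ^ (m + 1)) →
      ∀ m, Rm (n + 1) L (m + 1) ≤ Γ (n + 1) L ^ (m + 1)) ∧
    ∀ a z, finrank ℂ (Tn (Γ (n + 1) L) (evA L a (i z))) ≤
      finrank ℂ (Tn (Γ n (pull i L)) (evA (pull i L) a z)) + 1 := by
  have hl := hc.lb
  obtain ⟨-, d2⟩ := div hc
  obtain ⟨p0, p3, p1⟩ := pow_ V L hl
  obtain ⟨p1, p2⟩ := p1 hV
  have c1 : rA i L σ = 0 := funext₂ fun a z => by
    by_cases k : i z ∈ L.U a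
    exacts [hc.zero z k, hσ.2 a _ k]
  have c4 : ∀ m, ∀ f ∈ Rm (n + 1) L (m + 2), rA i L f = 0 →
      ∃ t ∈ Rm (n + 1) L (m + 1), f = t * σ := fun k f hf h0 => by
    obtain ⟨t, ht, e⟩ := d2 (L.pow (k + 2)) (L.pow (k + 1)) id id (ml_succ hl _) f hf h0
    refine ⟨t, ht, funext₂ fun a x => ?_⟩
    by_cases hx : x ∈ L.U a
    · rw [← e]
      exact tm_of (M := L.pow (k + 2)) hx
    · exact (hf.2 a x hx).trans ((congrArg (· * σ a x) (ht.2 a x hx)).trans (zero_mul _)).symm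
  have c5 : (Γ (n + 1) L).map (rA i L).toLinearMap = Γ n (pull i L) := by
    refine le_antisymm ?_ fun u hu => ld.ext T hT hc L hl ?_ u hu
    · rintro _ ⟨s, hs, rfl⟩
      exact res_mem hc.emb.hol hs
    · rwa [sub_sub_cancel_left]
  refine ⟨(ld.step T hT hc L (L.pow 0) id id (ml0 hl) ?_).trans (congrArg (· + _) (p2 hne)),
    fun h m => ?_, fun a z => ?_⟩
  · rw [Ap, hT.c1.pow V L 0 hl, Nat.cast_zero, zero_smul, zero_sub]
    exact hK
  · have k := gns _ _ (rA i L) (Rm (n + 1) L) σ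
    rw [p0, c5] at k
    exact k hσ p3 (fun m f hf => h _ (res_mem (L := L.pow (m + 2)) hc.emb.hol hf)) c4 m
  · rw [← c5]
    refine tns _ _ (rA i L) (Γ (n + 1) L) σ (evA (pull i L) a z)
      (fin V L ((hT.po.kah V).2 ⟨_, hK⟩) hl) hσ c1 (fun f hf h0 => ?_) fun f hf h0 => ?_
    · obtain ⟨t, ht, e⟩ := d2 L (L.pow 0) id id (ml0 hl) f hf h0
      obtain ⟨c, k⟩ := p1 t ht
      refine ⟨c, Γ_ext hf (Submodule.smul_mem _ c hσ) fun a x hx => ?_⟩
      rw [← e]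
      exact (tm_of (N := L.pow 0) hx).trans (congrArg (· * σ a x) (k a x hx))
    · rw [← sq] at hf
      obtain ⟨t, ht, e⟩ := c4 0 f (p3 1 hf) h0
      exact ⟨t, p0 ▸ ht, e⟩

end MdH

variable {T : CT} {n D : ℕ}

theorem MD.ne (hT : T.OK) {V : Mf (n + 1)} {L : Bd V.X} {β : T.H V} (h : MD T V L β D) :
    Nonempty V.X := by
  by_contra k
  have k1 := hT.rg.van (V := V) (W := V) (f := fun x => x) holM_id (n + 1)
    (fun x => absurd ⟨x⟩ k) (T.c1 V L ^ n * β)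
  have k2 := h.pos
  rw [hT.rg.pull_id] at k1
  rw [← hT.rg.int_pr, k1, map_zero] at k2
  exact lt_irrefl _ k2

/-- a manifold of minimal degree is a Fano manifold -/
theorem MD.fano (hT : T.OK) {V : Mf (n + 1)} {L : Bd V.X} {β : T.H V} (h : MD T V L β D) :
    T.Kc V (-T.c1 V (Bd.can (n + 1) V.X)) := by
  rw [h.can, neg_sub, sub_neg_eq_add]
  cases n with
  | succ n =>
    exact hT.po.mono (hT.po.add h.nn (hT.po.smul _ (by positivity) h.kc)) fun _ => inf_le_right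
  | zero =>
    obtain ⟨x⟩ := h.ne hT
    have k1 := hT.po.pos 1 0 x h.kc h.kc rfl rfl (by simp)
    have k2 := h.pos
    rw [pow_zero, one_mul] at k2
    rw [pow_zero, mul_one, pow_one] at k1
    have k3 := ConnX.top0 hT ((hT.po.kah V).2 ⟨_, h.kc⟩) h.conn
      (c := β - (T.int V β / T.int V (T.c1 V L)) • T.c1 V L)
      (by rw [CT.Dg, map_sub, map_smul, hT.po.deg h.nn, hT.c1.deg V L])
      (by rw [map_sub, map_smul, smul_eq_mul, div_mul_cancel₀ _ k1.ne', sub_self])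
    rw [Nat.cast_zero, zero_smul, add_zero, sub_eq_zero.1 k3]
    exact hT.po.smul _ (div_pos k2 k1) h.kc

theorem MD.cut (hT : T.OK) {V : Mf (n + 2)} {Z : Mf (n + 1)} {L : Bd V.X} {β : T.H V}
    {σ : L.ι → V.X → ℂ} {i : Z.X → V.X} (h : MD T V L β D) (hc : Cut L σ i) :
    MD T Z (pull i L) (T.pull hc.emb.hol β) D := by
  have e := hT.c1.pull hc.emb.hol L h.lb
  refine ⟨ld.conn T hT hc (by omega) h.kc h.conn, hc.emb.hol.lb h.lb, fun z => ?_, ?_,
    hT.po.mono (hT.po.pull hc.emb.hol h.nn) fun _ => le_top, ?_, ?_, ?_⟩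
  · obtain ⟨s, h1, h2⟩ := h.bpf (i z)
    exact ⟨_, hc.emb.hol.sec h1, h2⟩
  · rw [e]
    exact CutdA.kc_pull hT hc h.kc
  · rw [(ld.adj hc).2 T hT.c1, e, h.can, ← map_smul, ← map_neg, ← map_sub]
    refine congrArg _ ?_
    push_cast
    module
  · rw [e, ← map_pow, ← map_mul, ← hT.pl hc, ← mul_assoc, ← pow_succ']
    exact h.pos
  · rw [e, ← map_pow, ← hT.pl hc, ← pow_succ', h.deg]

/-- dimension, generation in degree one -/
theorem MD.gen (tns : TNS) (gns : GNS) (hT : T.OK) : ∀ {n : ℕ} {V : Mf (n + 1)} {L : Bd V.X}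
    {β : T.H V}, MD T V L β D →
    h0 (n + 1) L = D + n + 1 ∧ ∀ m, Rm (n + 1) L (m + 1) ≤ Γ (n + 1) L ^ (m + 1) := by
  intro n
  induction n with
  | zero =>
    intro V L β h
    obtain ⟨σ, Z, i, hc, hσ⟩ := LadH.ex_cut ld h.lb h.bpf
    obtain ⟨s1, s2, -⟩ := MdH.stp tns gns hT h.conn (h.ne hT) (h.fano hT) hc hσ
    have k := hT.pl hc 1
    rw [mul_one, map_one, hT.rg.int_pt, ← pow_one (T.c1 V L), h.deg, Nat.cast_inj] at k
    exact ⟨by rw [s1, (pt Z _ (hc.emb.hol.lb h.lb)).2.1, ← k, add_comm],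
      s2 (MdH.pts Z (hc.emb.hol.lb h.lb)).1⟩
  | succ n ih =>
    intro V L β h
    obtain ⟨σ, Z, i, hc, hσ⟩ := LadH.ex_cut ld h.lb h.bpf
    obtain ⟨s1, s2, -⟩ := MdH.stp tns gns hT h.conn (h.ne hT) (h.fano hT) hc hσ
    obtain ⟨i1, i2⟩ := ih (h.cut hT hc)
    exact ⟨by omega, s2 i2⟩

/-- the quadrics cut out the tangent spaces -/
theorem MD.tan (tns : TNS) (gns : GNS) (hT : T.OK) {ι : Type} [Fintype ι] : ∀ {n : ℕ}
    {V : Mf (n + 1)} {L : Bd V.X} {β : T.H V} {s : ι → L.ι → V.X → ℂ}, MD T V L β D →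
    Va (n + 1) L s → ∀ a x, x ∈ L.U a → finrank ℂ (Tn (Γ (n + 1) L) (evA L a x)) ≤ n + 2 := by
  intro n
  induction n with
  | zero =>
    intro V L β s h va a x ha
    obtain ⟨σ, Z, i, z, hc, rfl⟩ := va.cut ber x
    exact ((MdH.stp tns gns hT h.conn (h.ne hT) (h.fano hT) hc.nm (nm_mem h.lb hc.sec)).2.2 a z).trans
      (Nat.succ_le_succ ((MdH.pts Z (hc.emb.hol.lb h.lb)).2 a z ha))
  | succ n ih =>
    intro V L β s h va a x ha
    obtain ⟨σ, Z, i, z, hc, rfl⟩ := va.cut ber x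
    exact ((MdH.stp tns gns hT h.conn (h.ne hT) (h.fano hT) hc.nm (nm_mem h.lb hc.sec)).2.2 a z).trans
      (Nat.succ_le_succ (ih (h.cut hT hc) (va.pull hc.emb) a z ha))

end Vale.Agent.P280Z.En
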