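import Vale.Agent.P280Z.En.Fb
import Vale.Agent.P280Z.En.Ko
import Vale.Agent.P280Z.Qs.Q5

/-!
# P280Z, block EN: quadrics
-/

open scoped Manifold ContDiff Topology
open Set Filter
open Vale.Agent.P272.K Vale.Agent.P285.H281.FD Vale.Agent.P281Z
open Vale.Agent.P280Z.Gm
open Vale.Agent.P280Z.Mp (Eqs)

noncomputable section

namespace Vale.Agent.P280Z.En

theorem map_Hn {B B' : Type} [CommRing B] [CommRing B'] (φ : B →+* B') {a e : B} (h : φ e = 0) :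
    ∀ k, φ (Al.Hn a e k) = φ a ^ k
  | 0 => by rw [Al.Hn, map_one, pow_zero]
  | 1 => by rw [Al.Hn, pow_one]
  | k + 2 => by rw [Al.Hn, map_sub, map_mul, map_mul, h, map_Hn φ h (k + 1)]; ring

variable {T : CT} {n N r' d D k δ r : ℕ} {V : Mf n} {P : Eqs r' N} {pt : Cm N → V.X}
  {F : Mp.Fam V P pt d D k} {E : VB F.U.X}

/-- the classes on a fibre of the evaluation map -/
theorem fibr (h : Cv.Sit T δ F r E) (hR : HRR T) (x : V.X) :
    ∃ (Z : Mf r) (i : Z.X → F.U.X) (hi : Emb r (k + 1) i (F.e ⁻¹' {x})) (ψ : T.H Z),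
      ConnectedSpace Z.X ∧ T.Kc Z ψ ∧ T.pull hi.hol (-(Cv.nsF T F E).τ) = ψ ∧
      T.pull hi.hol (Cv.nsF T F E).hh = 0 ∧ T.pull hi.hol (Cv.nsF T F E).hc = ψ ∧
      T.pull hi.hol (Cv.nsF T F E).aa = ψ ∧ (∀ j, T.pull hi.hol ((Cv.nsF T F E).H j) = ψ ^ j) ∧
      ∀ j, T.ps Z (VB.tan r Z.X) (j + 1) = T.pull hi.hol ((Cv.nsF T F E).pE (j + 1)) := by
  have s := fs_of h
  obtain ⟨⟨Z, i, hi⟩, -⟩ := fibi T h.ok F.e x h.dim s.se
  obtain ⟨h1, h2⟩ := fb h.ok s.se h.dim h.rel hi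
  have h3 : T.pull hi.hol (Cv.nsF T F E).hh = 0 := h2 0 _ h.ns.dη
  have h4 : T.pull hi.hol (Cv.nsF T F E).hc = T.pull hi.hol (-(Cv.nsF T F E).τ) := by
    rw [NS.hc, map_sub, h3, zero_sub, map_neg]
  have h5 : T.pull hi.hol (Cv.nsF T F E).aa = T.pull hi.hol (-(Cv.nsF T F E).τ) := by
    rw [NS.aa, map_add, h3, zero_add, h4]
  refine ⟨Z, i, hi, _, hi.conn.2 (cov T h.ok hR _ _ _ s.se s.cU s.cX (s.fa h.ok) x),
    h.tau Z i x hi, rfl, h3, h4, h5, fun j => ?_, h1⟩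
  exact (map_Hn (T.pull hi.hol).toRingHom (by
    show T.pull hi.hol _ = 0
    rw [NS.ee, map_mul, h3, zero_mul]) j).trans (congrArg (· ^ j) h5)

/-- **the end game for quadrics** -/
theorem qe {V : Mf (r + 2)} {pt : Cm N → V.X} {F : Mp.Fam V P pt d D k} {E : VB F.U.X}
    (h1 : 1 ≤ r) (h4 : r ≤ 4) (h : Cv.Sit T δ F r E) (hR : HRR T)
    (o : Qs.Out (Cv.nsF T F E) (r + 2) r) : Gp.Gen (r + 2) V.X := by
  have hT := h.ok
  have s := fs_of h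
  have := s.cX
  set η := (d : ℝ)⁻¹ • T.c1 V (O1 P pt)
  have vol : T.int V (η ^ (r + 2)) = 2 := o.vol
  have hW : ∀ x, ∃ (W : Mf (r + 1)) (g : W.X → V.X) (hg : HolM (r + 1) (r + 2) g),
      T.int W (T.pull hg (η ^ (r + 1))) = T.int V (η ^ (r + 2)) ∧
      ∀ y, y ∈ range g ↔ ∃ u u', F.e u = x ∧ F.e u' = y ∧ F.p u = F.p u' := fun x => by
    obtain ⟨Z, i, hi, ψ, c1, c2, c3, c4, c5, c6, c7, c8⟩ := fibr h hR x
    obtain ⟨W, j, hj, a1, a2⟩ := crv hT s.sp hi.hol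
    have e : ∀ l, l + 1 ≤ r → T.ps Z (VB.tan r Z.X) (l + 1) =
        ((r : ℝ) + 2 - 2 ^ (l + 1)) • ψ ^ (l + 1) := fun l hl => by
      rw [c8, o.pE _ (by omega) hl]
      simp only [map_sub, map_smul, map_pow, map_mul, map_ofNat, c3, c5, c6, mul_pow]
      push_cast
      algebra
    have hF : Fa T Z := by
      rw [Fa, ← hT.ch.tan, e 0 h1, zero_add, pow_one, pow_one, add_sub_cancel_right]
      exact hT.po.smul _ (by exact_mod_cast h1) c2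
    have rr := (rt T hT hR).1 Z c1 hF
    have hD : T.int Z (ψ ^ r) = 2 := by
      rw [CT.RR, Hr.coeff_td _ _ (by omega)] at rr
      suffices H : Hr.tdx (0 + (1 / 2 : ℝ) • T.ps Z (VB.tan r Z.X) 1)
          (-(1 / 24 : ℝ) • T.ps Z (VB.tan r Z.X) 2) ((1 / 2880 : ℝ) • T.ps Z (VB.tan r Z.X) 4)
          (-(1 / 181440 : ℝ) • T.ps Z (VB.tan r Z.X) 6)
          ((1 / 9676800 : ℝ) • T.ps Z (VB.tan r Z.X) 8) r = (1 / 2 : ℝ) • ψ ^ r by
        rw [H, map_smul, smul_eq_mul] at rr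
        linarith
      clear rr vol
      interval_cases r
      · rw [Hr.tdx, e 0 le_rfl]
        push_cast
        algebra
      · rw [Hr.tdx, e 0 h1, e 1 le_rfl]
        push_cast
        algebra
      · rw [Hr.tdx, e 0 h1, e 1 (by norm_num)]
        push_cast
        algebra
      · rw [Hr.tdx, e 0 h1, e 1 (by norm_num), e 3 le_rfl]
        push_cast
        algebra
    refine ⟨W, _, s.se.hol.comp hj, ?_, fun y => ⟨?_, ?_⟩⟩
    · rw [hT.rg.pull_comp hj s.se.hol _ fun _ => rfl, a2, vol, map_pow]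
      exact (congrArg (fun b => T.int Z (T.pull hi.hol b))
        ((Al.lei _ _ _ h.ns.toOK0).pow r)).trans (c7 r ▸ hD)
    · rintro ⟨w, rfl⟩
      obtain ⟨z, hz⟩ := (a1 _).1 (mem_range_self w)
      exact ⟨i z, j w, hi.fib z, rfl, hz⟩
    · rintro ⟨u, u', rfl, rfl, h3⟩
      obtain ⟨z, rfl⟩ := hi.ex (y := u) rfl
      obtain ⟨w, rfl⟩ := (a1 u').2 ⟨z, h3⟩
      exact ⟨w, rfl⟩
  obtain ⟨L, a1, a2, a3⟩ := s.fund hT hR fun y => by
    obtain ⟨W, g, hg, -, b⟩ := hW y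
    obtain ⟨x, hx⟩ := (bad.2 W V g (Nat.lt_succ_self _) hg).nonempty
    obtain ⟨W', g', hg', b1, b2⟩ := hW x
    exact ⟨W', g', hg', b1, fun c => let ⟨u, u', k1, k2, k3⟩ := (b2 y).1 c
      hx ((b x).2 ⟨u', u, k2, k1, k3.symm⟩)⟩
  refine ko2 hT (V := V) (L := L) (β := η) ⟨inferInstance, a1, a2, a3 ▸ s.kc,
    hT.po.mono s.kc fun _ => le_top, ?_, ?_, ?_⟩
  · rw [a3, s.can]
    push_cast
    module
  · rw [a3, ← pow_succ, vol]
    norm_num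
  · rw [a3, vol]
    norm_num

end Vale.Agent.P280Z.En
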