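import Vale.Agent.P280Z.En.Defs

/-!
# P280Z, block EN: the assembly
-/

open scoped Manifold ContDiff Topology Matrix
open Set Filter
open Vale.Agent.P272.K Vale.Agent.P285.H281.FD Vale.Agent.P281Z Vale.Agent.P280Z.Ld
open Vale.Agent.P277Z (Hol hol_const)
open Vale.Agent.P277Z.Slc (dd isLB_can)
open Module (finrank)

noncomputable section

namespace Vale.Agent.P280Z.En

theorem dp5_of (hF : FIN) (hP : POW) (hG : LADG) (hV : VAL) (hL : LADT) (hQ : QUAD) (hT : TRIV)
    (hK : PLK) (hA : IMA) (hB : IMB) (hN : GEN) : DP5 := by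
  intro T ok V L h
  obtain ⟨h1, h2, h3⟩ := hG T ok (n := 5) h
  have := hF V L ((ok.po.kah V).2 ⟨_, h.kc⟩) h.lb
  let b := Module.finBasisOfFinrankEq ℂ (Γ 6 L) (n := 10) h1
  set s : Fin 10 → L.ι → V.X → ℂ := fun j => (b j).1 with hs
  have hi : LinearIndependent ℂ s := b.linearIndependent.map' (Γ 6 L).subtype (Submodule.ker_subtype _)
  have hsp : Γ 6 L = Submodule.span ℂ (range s) := by
    rw [show range s = (Γ 6 L).subtype '' range b from (range_comp _ _), ← Submodule.map_span,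
      b.span_eq, Submodule.map_top, Submodule.range_subtype]
  have va := hV V L _ s h.lb (ok.kp V L h.lb h.kc) h.bpf h3 hsp
  have h4 : Γ 6 L * Γ 6 L = Rm 6 L 2 := by
    rw [← pow_two]
    exact le_antisymm ((hP V L h.lb).2.1 1) (h3 1)
  obtain ⟨B, b1, b2, b3⟩ := hQ _ s _ hi hsp (by
    rw [h4]
    change 2 * h0 6 (L.pow 2) = 100 at h2
    change h0 6 (L.pow 2) = 50
    omega)
  have hk : T.c1 V (Bd.can 6 V.X) = (-5 : ℝ) • T.c1 V L := by rw [h.can]; norm_num
  obtain ⟨N, hd⟩ := hK V L s B va hsp (hT T ok V _ _ h.conn (by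
      rw [hk, ← neg_smul]
      exact ok.po.smul _ (by norm_num) h.kc) (lb_pow h.lb 2) (lb_mul isLB_can (lb_pow h.lb 7)) (by
      rw [ok.c1.mul V _ _ isLB_can (lb_pow h.lb 7), ok.c1.pow V L 2 h.lb, ok.c1.pow V L 7 h.lb, hk,
        ← add_smul]
      norm_num)) b1 b2 fun a x ha => (b3 (evA L a x)).trans (hL T ok (n := 5) h va a x ha)
  have e1 : ∀ (φ : Fin 10 → ℂ) p q, N φ p q = ∑ j, N (Pi.single j 1) p q * φ j := fun φ p q => by
    conv_lhs => rw [pi_eq_sum_univ' φ, map_sum]
    simp only [map_smul, Matrix.sum_apply, Matrix.smul_apply, smul_eq_mul, mul_comm]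
  have e2 := fun j => (va.sec j).1
  obtain ⟨a, x, e, ha, he, hx⟩ := hA T ok V L (Fin 5 × Fin 5)
    (fun p a x => ∑ j, N (Pi.single j 1) p.1 p.2 * s j a x) h.lb
    (fun p => isSec_of (fun _ _ k => Hol.sum _ fun j _ => (hol_const _ _).mul (sec_hol (e2 j) k))
      fun a a' x k k' => by simp only [(e2 _).change a a' x k k', Finset.mul_sum, mul_left_comm])
    (eq_empty_of_forall_notMem fun x hx => by
      obtain ⟨a, ha⟩ := h.lb.cover x
      refine (hd a x ha).1 (Matrix.ext fun p q => (e1 _ p q).trans (of_not_not fun k => hx (p, q)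
        fun a' ha' k' => k ?_))
      simp only [(e2 _).change a a' x ha ha', mul_left_comm _ (L.g a a' x), ← Finset.mul_sum]
      exact mul_eq_zero_of_right _ k') (by rw [h.deg]; norm_num)
  have e3 := fun j => sec_hol (e2 j) ha e he
  refine hN V L s N va hd (hB N (fun z j => s j a (e.symm z)) (e x) (analyticAt_pi_iff.2 e3)
    (at_ev he ((lb_near h.lb ha).mono (hd a))) fun v c k => hx v c fun p => ?_)
  have k1 := congrFun₂ k p.1 p.2
  rw [Matrix.smul_apply, e1, e1, he.left_inv, fderiv_pi fun j => (e3 j).differentiableAt] at k1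
  rw [dd, (HasFDerivAt.fun_sum (u := Finset.univ) fun j _ =>
    (e3 j).differentiableAt.hasFDerivAt.const_mul (N (Pi.single j 1) p.1 p.2)).fderiv]
  simpa using k1

end Vale.Agent.P280Z.En
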